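import Vale.Agent.P217.A.Inst
import Vale.Agent.P217.BlockC

/-!
# P217, block J: algebra in the Lubin-Tate ring

Integral multiples of the logarithm coefficients, the low coefficients of the residual law, and
first derivatives.
-/

noncomputable section

namespace Vale.Agent.P217.Strat0

open Finset MvPowerSeries
open scoped Classical

variable {p n : ℕ} [Fact p.Prime]

theorem vv_self : vv p n n = 1 := by
  simp [vv]

theorem vv_zero (hn : 1 ≤ n) : vv p n 0 = 0 := by
  simp [vv, show ¬(0 = n) by omega]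

theorem vv_mem {i : ℕ} (hi : i < n) : vv p n i ∈ IsLocalRing.maximalIdeal (E0 p n) := by
  rw [CPoint.mem_maximal_iff]
  by_cases h1 : 1 ≤ i
  · simp [vv, residue, dif_pos (And.intro h1 hi)]
  · simp [vv, show ¬(1 ≤ i ∧ i < n) by omega, show i ≠ n by omega]

/-- The product of the logarithm coefficient with its power of p. -/
def mu (p n : ℕ) [Fact p.Prime] : ℕ → E0 p n
  | 0 => 1
  | k + 1 => ∑ j : Fin (k + 1),
      (p : E0 p n) ^ (k - j.1) * mu p n j.1 * vv p n (k + 1 - j.1) ^ p ^ j.1

theorem mu_zero : mu p n 0 = 1 := by rw [mu]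

theorem mu_succ (k : ℕ) : mu p n (k + 1) =
    ∑ j ∈ range (k + 1), (p : E0 p n) ^ (k - j) * mu p n j * vv p n (k + 1 - j) ^ p ^ j := by
  rw [mu, Finset.sum_range fun j => (p : E0 p n) ^ (k - j) * mu p n j * vv p n (k + 1 - j) ^ p ^ j]

theorem algebraMap_mu (k : ℕ) :
    algebraMap (E0 p n) (E0Inv p n) (mu p n k) = (p : E0Inv p n) ^ k * logCoeff p n k := by
  induction k using Nat.strong_induction_on with
  | _ k ih =>
    cases k with
    | zero => simp [mu_zero, logCoeff]
    | succ k =>
      rw [mu_succ, map_sum, pow_succ, mul_assoc,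
        show (p : E0Inv p n) * logCoeff p n (k + 1) = _ from (ltData p n).M_succ k, mul_sum]
      refine sum_congr rfl fun j hj => ?_
      rw [mem_range] at hj
      simp only [map_mul, map_pow, map_natCast, ih j hj]
      show _ = (p : E0Inv p n) ^ k * (logCoeff p n j * _)
      nth_rw 3 [show k = k - j + j by omega]
      rw [pow_add]
      simp only [ltData]
      ring

theorem algebraMap_injective :
    Function.Injective (algebraMap (E0 p n) (E0Inv p n)) := (ltData p n).inj

/-- The coefficient of a power of the law, minus that of the additive law. -/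
def powCoeff (F : FormalGroup (E0 p n)) (k : ℕ) (N : Fin 2 →₀ ℕ) : E0 p n :=
  MvPowerSeries.coeff N (F.toPowerSeries ^ p ^ k) -
    MvPowerSeries.coeff N ((MvPowerSeries.X 0 : MvPowerSeries (Fin 2) (E0 p n)) ^ p ^ k +
      MvPowerSeries.X 1 ^ p ^ k)

theorem law_identity {F : FormalGroup (E0 p n)} (hF : IsUniversalDeformation p n F)
    (N : Fin 2 →₀ ℕ) {D : ℕ} (hD : N.degree ≤ D) :
    ∑ k ∈ range (D + 1), (p : E0 p n) ^ (D - k) * mu p n k * powCoeff F k N = 0 := by
  have hp1 := (Fact.out : p.Prime).one_lt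
  have h := congrArg (MvPowerSeries.coeff N) hF
  rw [map_add, logSeries_eq, FE.Data.f,
    FE.coeff_subst_pser hp1 _ (F.map (algebraMap (E0 p n) (E0Inv p n))).zero_constantCoeff N hD,
    FE.coeff_subst_pser hp1 _ (MvPowerSeries.constantCoeff_X 0) N hD,
    FE.coeff_subst_pser hp1 _ (MvPowerSeries.constantCoeff_X 1) N hD, ← sum_add_distrib] at h
  refine algebraMap_injective ?_
  rw [map_sum, map_zero]
  have e : ∀ k ∈ range (D + 1), algebraMap (E0 p n) (E0Inv p n)
      ((p : E0 p n) ^ (D - k) * mu p n k * powCoeff F k N) = (p : E0Inv p n) ^ D *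
        ((ltData p n).M k * (MvPowerSeries.coeff N
          ((F.map (algebraMap (E0 p n) (E0Inv p n))).toPowerSeries ^ p ^ k)) -
        ((ltData p n).M k * MvPowerSeries.coeff N
            ((MvPowerSeries.X 0 : MvPowerSeries (Fin 2) (E0Inv p n)) ^ p ^ k) +
          (ltData p n).M k * MvPowerSeries.coeff N
            ((MvPowerSeries.X 1 : MvPowerSeries (Fin 2) (E0Inv p n)) ^ p ^ k))) := by
    intro k hk
    rw [mem_range] at hk
    simp only [powCoeff, map_mul, map_sub, map_add, map_pow, map_natCast, algebraMap_mu,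
      ← MvPowerSeries.coeff_map, FormalGroup.map, MvPowerSeries.map_X]
    conv_rhs => rw [show D = D - k + k by omega, pow_add]
    simp only [ltData]
    ring
  rw [sum_congr rfl e, ← mul_sum, sum_sub_distrib, h, sub_self, mul_zero]

/-- The constant term of an element. -/
def ev0 (p n : ℕ) [Fact p.Prime] : E0 p n →+* WittVector p (GaloisField p n) :=
  MvPowerSeries.constantCoeff

theorem ev0_vv {i : ℕ} : ev0 p n (vv p n i) = if i = n then 1 else 0 := by
  simp only [ev0, vv]
  split_ifs with h1 h2 <;> first | omega | simp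

theorem ev0_mu_lt {k : ℕ} (h1 : 1 ≤ k) (hk : k < n) : ev0 p n (mu p n k) = 0 := by
  obtain ⟨k, rfl⟩ : ∃ j, k = j + 1 := ⟨k - 1, by omega⟩
  rw [mu_succ, map_sum]
  refine sum_eq_zero fun j hj => ?_
  rw [mem_range] at hj
  rw [map_mul, map_pow (ev0 p n) (vv p n _), ev0_vv, if_neg (by omega),
    zero_pow (pow_ne_zero _ (Fact.out : p.Prime).ne_zero), mul_zero]

theorem ev0_mu_self (hn : 1 ≤ n) :
    ev0 p n (mu p n n) = (p : WittVector p (GaloisField p n)) ^ (n - 1) := by
  obtain ⟨k, hk⟩ : ∃ k, n = k + 1 := ⟨n - 1, by omega⟩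
  rw [show mu p n n = mu p n (k + 1) from congrArg _ hk, mu_succ, map_sum, sum_eq_single 0]
  · simp [mu_zero, ← hk, vv_self, show n - 1 = k by omega]
  · intro j hj hj0
    rw [mem_range] at hj
    rw [map_mul, map_pow (ev0 p n) (vv p n _), ev0_vv, if_neg (by omega),
      zero_pow (pow_ne_zero _ (Fact.out : p.Prime).ne_zero), mul_zero]
  · intro h
    exact absurd (mem_range.2 k.succ_pos) h

theorem coeff_X_pow_mixed {R : Type} [CommRing R] {N : Fin 2 →₀ ℕ} (h0 : N 0 ≠ 0) (h1 : N 1 ≠ 0)
    (k : ℕ) : MvPowerSeries.coeff N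
      ((MvPowerSeries.X 0 : MvPowerSeries (Fin 2) R) ^ k + MvPowerSeries.X 1 ^ k) = 0 := by
  rw [map_add, MvPowerSeries.coeff_X_pow, MvPowerSeries.coeff_X_pow, if_neg, if_neg, add_zero]
  · intro h
    exact h0 (by rw [h]; simp)
  · intro h
    exact h1 (by rw [h]; simp)

theorem two_le_degree {N : Fin 2 →₀ ℕ} (h0 : N 0 ≠ 0) (h1 : N 1 ≠ 0) : 2 ≤ N.degree := by
  rw [Finsupp.degree_eq_sum, Fin.sum_univ_two]
  omega

theorem ev0_identity {F : FormalGroup (E0 p n)} (hF : IsUniversalDeformation p n F) (hn : 1 ≤ n)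
    {N : Fin 2 →₀ ℕ} (h0 : N 0 ≠ 0) (h1 : N 1 ≠ 0) (hN : N.degree ≤ p ^ n) :
    (p : WittVector p (GaloisField p n)) * ev0 p n (MvPowerSeries.coeff N F.toPowerSeries) +
      ev0 p n (MvPowerSeries.coeff N (F.toPowerSeries ^ p ^ n)) = 0 := by
  have hp := (Fact.out : p.Prime)
  have hnD : n < p ^ n + 1 := Nat.lt_succ_of_le (Nat.lt_pow_self hp.one_lt).le
  have h := congrArg (ev0 p n) (law_identity hF N hN)
  rw [map_sum, map_zero, sum_eq_add (f := fun k => ev0 p n
      ((p : E0 p n) ^ (p ^ n - k) * mu p n k * powCoeff F k N)) 0 n (by omega)] at h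
  · simp only [powCoeff, coeff_X_pow_mixed h0 h1, sub_zero, map_mul, map_pow, map_natCast,
      mu_zero, mul_one, pow_zero, pow_one, Nat.sub_zero, ev0_mu_self hn, ← pow_add] at h
    have h01 := coeff_X_pow_mixed (R := E0 p n) h0 h1 1
    rw [pow_one, pow_one] at h01
    rw [h01, sub_zero] at h
    rw [show p ^ n - n + (n - 1) = p ^ n - 1 by omega] at h
    refine mul_left_cancel₀ (pow_ne_zero (p ^ n - 1) (WittVector.p_nonzero p (GaloisField p n))) ?_
    rw [mul_zero, mul_add, ← mul_assoc, ← pow_succ, show p ^ n - 1 + 1 = p ^ n by omega]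
    exact h
  · intro k hk ⟨hk0, hkn⟩
    rw [mem_range] at hk
    rcases Nat.lt_or_ge k n with hlt | hge
    · rw [map_mul, map_mul, ev0_mu_lt (by omega) hlt, mul_zero, zero_mul]
    · have hdeg : N.degree < p ^ k :=
        hN.trans_lt (Nat.pow_lt_pow_right hp.one_lt (by omega))
      rw [powCoeff, coeff_X_pow_mixed h0 h1,
        FE.coeff_pow_eq_zero_of_degree_lt F.zero_constantCoeff hdeg, sub_zero, mul_zero, map_zero]
  · intro h'
    exact absurd (mem_range.2 (by omega)) h'
  · intro h'
    exact absurd (mem_range.2 hnD) h'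

theorem residue_eq (a : E0 p n) : residue a = WittVector.constantCoeff (ev0 p n a) := rfl

theorem residue_coeff_low {F : FormalGroup (E0 p n)} (hF : IsUniversalDeformation p n F)
    (hn : 1 ≤ n) {N : Fin 2 →₀ ℕ} (h0 : N 0 ≠ 0) (h1 : N 1 ≠ 0) (hN : N.degree < p ^ n) :
    residue (MvPowerSeries.coeff N F.toPowerSeries) = 0 := by
  have h := ev0_identity hF hn h0 h1 hN.le
  rw [FE.coeff_pow_eq_zero_of_degree_lt F.zero_constantCoeff hN, map_zero, add_zero] at h
  rcases mul_eq_zero.1 h with h | h
  · exact absurd h (WittVector.p_nonzero p (GaloisField p n))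
  · rw [residue_eq, h, map_zero]

/-- The exponent of the test monomial in degree q. -/
def testExp (p n : ℕ) : Fin 2 →₀ ℕ :=
  Finsupp.single 0 (p ^ (n - 1)) + Finsupp.single 1 (p ^ n - p ^ (n - 1))

theorem pow_pred_lt (hn : 1 ≤ n) : p ^ (n - 1) < p ^ n :=
  Nat.pow_lt_pow_right (Fact.out : p.Prime).one_lt (by omega)

omit [Fact p.Prime] in
theorem testExp_zero : testExp p n 0 = p ^ (n - 1) := by simp [testExp]

omit [Fact p.Prime] in
theorem testExp_one : testExp p n 1 = p ^ n - p ^ (n - 1) := by simp [testExp]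

theorem testExp_degree (hn : 1 ≤ n) : (testExp p n).degree = p ^ n := by
  rw [Finsupp.degree_eq_sum, Fin.sum_univ_two, testExp_zero, testExp_one]
  have := pow_pred_lt (p := p) hn
  omega

theorem coeff_add_pow {R : Type} [CommRing R] {q i : ℕ} (hi : i ≤ q) {N : Fin 2 →₀ ℕ}
    (h0 : N 0 = i) (h1 : N 1 = q - i) :
    MvPowerSeries.coeff N ((MvPowerSeries.X 0 + MvPowerSeries.X 1 :
      MvPowerSeries (Fin 2) R) ^ q) = (q.choose i : R) := by
  have hNe : N = Finsupp.single 0 i + Finsupp.single 1 (q - i) := by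
    ext j
    fin_cases j <;> simp [h0, h1]
  rw [add_pow, map_sum, sum_eq_single i]
  · rw [← map_natCast (MvPowerSeries.C (σ := Fin 2) (R := R)), MvPowerSeries.coeff_mul_C,
      MvPowerSeries.X_pow_eq, MvPowerSeries.X_pow_eq, MvPowerSeries.monomial_mul_monomial,
      MvPowerSeries.coeff_monomial, if_pos hNe, mul_one, one_mul]
  · intro j _ hj
    rw [← map_natCast (MvPowerSeries.C (σ := Fin 2) (R := R)), MvPowerSeries.coeff_mul_C,
      MvPowerSeries.X_pow_eq, MvPowerSeries.X_pow_eq, MvPowerSeries.monomial_mul_monomial,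
      MvPowerSeries.coeff_monomial, if_neg, zero_mul]
    intro h
    refine hj ?_
    have := DFunLike.congr_fun h 0
    simpa [h0] using this.symm
  · intro h
    exact absurd (mem_range.2 (by omega)) h

theorem coeff_pow_eq_linear {R : Type} [CommRing R] {G : MvPowerSeries (Fin 2) R}
    (h0 : MvPowerSeries.constantCoeff G = 0) (hX : MvPowerSeries.coeff (Finsupp.single 0 1) G = 1)
    (hY : MvPowerSeries.coeff (Finsupp.single 1 1) G = 1) {q : ℕ}
    {N : Fin 2 →₀ ℕ} (hN : N.degree ≤ q) :
    MvPowerSeries.coeff N (G ^ q) =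
      MvPowerSeries.coeff N ((MvPowerSeries.X 0 + MvPowerSeries.X 1) ^ q) := by
  set L : MvPowerSeries (Fin 2) R := MvPowerSeries.X 0 + MvPowerSeries.X 1
  have hL : MvPowerSeries.constantCoeff L = 0 := by simp [L]
  have hord : ((2 : ℕ) : ℕ∞) ≤ (G - L).order := MvPowerSeries.nat_le_order fun m hm => by
    rw [Finsupp.degree_eq_sum, Fin.sum_univ_two] at hm
    have : m = 0 ∨ m = Finsupp.single 0 1 ∨ m = Finsupp.single 1 1 := by
      rcases (by omega : (m 0 = 0 ∧ m 1 = 0) ∨ (m 0 = 1 ∧ m 1 = 0) ∨ (m 0 = 0 ∧ m 1 = 1)) with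
        ⟨a, b⟩ | ⟨a, b⟩ | ⟨a, b⟩
      · exact Or.inl (by ext j; fin_cases j <;> simp [a, b])
      · exact Or.inr (Or.inl (by ext j; fin_cases j <;> simp [a, b]))
      · exact Or.inr (Or.inr (by ext j; fin_cases j <;> simp [a, b]))
    rcases this with rfl | rfl | rfl
    · simp [L, MvPowerSeries.coeff_zero_eq_constantCoeff_apply, h0]
    · simp [L, hX, MvPowerSeries.coeff_X, Finsupp.single_eq_single_iff]
    · simp [L, hY, MvPowerSeries.coeff_X, Finsupp.single_eq_single_iff]
  rw [← sub_eq_zero, ← map_sub, ← geom_sum₂_mul, sum_mul, map_sum]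
  refine sum_eq_zero fun i hi => ?_
  rw [mem_range] at hi
  refine MvPowerSeries.coeff_of_lt_order (lt_of_lt_of_le ?_ (le_trans (add_le_add
    (le_trans (add_le_add (MvPowerSeries.le_order_pow_of_constantCoeff_eq_zero i h0)
      (MvPowerSeries.le_order_pow_of_constantCoeff_eq_zero (q - 1 - i) hL))
      MvPowerSeries.le_order_mul) hord) MvPowerSeries.le_order_mul))
  exact_mod_cast (by omega : N.degree < i + (q - 1 - i) + 2)

theorem residue_coeff_test {F : FormalGroup (E0 p n)} (hF : IsUniversalDeformation p n F)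
    (hn : 1 ≤ n) : residue (MvPowerSeries.coeff (testExp p n) F.toPowerSeries) ≠ 0 := by
  have hp := (Fact.out : p.Prime)
  have hlt := pow_pred_lt (p := p) hn
  have hd := testExp_degree (p := p) hn
  have h0 : testExp p n 0 ≠ 0 := by rw [testExp_zero]; exact pow_ne_zero _ hp.ne_zero
  have h1 : testExp p n 1 ≠ 0 := by rw [testExp_one]; omega
  have h := ev0_identity hF hn h0 h1 hd.le
  rw [coeff_pow_eq_linear F.zero_constantCoeff F.lin_coeff_X F.lin_coeff_Y
    hd.le, coeff_add_pow hlt.le testExp_zero testExp_one,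
    map_natCast] at h
  have hfac : ((p ^ n).choose (p ^ (n - 1))).factorization p = 1 := by
    rw [Nat.factorization_choose_prime_pow hp hlt.le (pow_ne_zero _ hp.ne_zero),
      hp.factorization_pow, Finsupp.single_eq_same]
    omega
  obtain ⟨t, ht⟩ := Nat.dvd_of_factorization_pos (by omega :
    ((p ^ n).choose (p ^ (n - 1))).factorization p ≠ 0)
  have htp : ¬p ∣ t := by
    intro hdvd
    obtain ⟨t', rfl⟩ := hdvd
    have h2 : p ^ 2 ∣ (p ^ n).choose (p ^ (n - 1)) := ⟨t', by rw [ht]; ring⟩
    rw [hp.pow_dvd_iff_le_factorization (Nat.choose_pos hlt.le).ne'] at h2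
    omega
  rw [ht, Nat.cast_mul, ← mul_add, mul_eq_zero] at h
  rcases h with h | h
  · exact absurd h (WittVector.p_nonzero p (GaloisField p n))
  · rw [residue_eq, eq_neg_of_add_eq_zero_left h, map_neg, map_natCast, neg_ne_zero]
    exact fun hz => htp ((CharP.cast_eq_zero_iff (GaloisField p n) p t).1 hz)

theorem coeff_frob_pow {R : Type} [CommRing R] [CharP R p] (G : MvPowerSeries (Fin 2) R) (k : ℕ)
    (M : Fin 2 →₀ ℕ) :
    MvPowerSeries.coeff (p ^ k • M) (G ^ p ^ k) = MvPowerSeries.coeff M G ^ p ^ k := by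
  have : ExpChar R p := ExpChar.prime Fact.out
  rw [← MvPowerSeries.map_iterateFrobenius_expand p (Fact.out : p.Prime).ne_zero G k,
    MvPowerSeries.coeff_map, MvPowerSeries.coeff_expand_smul, iterateFrobenius_def]

theorem coeff_frob_pow_eq_zero {R : Type} [CommRing R] [CharP R p] (G : MvPowerSeries (Fin 2) R)
    (k : ℕ) {N : Fin 2 →₀ ℕ} {i : Fin 2} (h : ¬p ^ k ∣ N i) :
    MvPowerSeries.coeff N (G ^ p ^ k) = 0 := by
  have : ExpChar R p := ExpChar.prime Fact.out
  rw [← MvPowerSeries.map_iterateFrobenius_expand p (Fact.out : p.Prime).ne_zero G k,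
    MvPowerSeries.coeff_map, MvPowerSeries.coeff_expand_of_not_dvd _ _ _ h, map_zero]

theorem residue_powCoeff {F : FormalGroup (E0 p n)} {k₀ k : ℕ} (hn : 1 ≤ n) :
    residue (powCoeff F k (p ^ k₀ • testExp p n)) = MvPowerSeries.coeff (p ^ k₀ • testExp p n)
      ((MvPowerSeries.map residue F.toPowerSeries) ^ p ^ k) := by
  have hp := (Fact.out : p.Prime)
  have hlt := pow_pred_lt (p := p) hn
  rw [powCoeff, coeff_X_pow_mixed, sub_zero, ← map_pow, MvPowerSeries.coeff_map]
  · simp [testExp_zero, hp.ne_zero]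
  · simp [testExp_one, hp.ne_zero]
    omega

theorem residue_powCoeff_of_lt {F : FormalGroup (E0 p n)} (hF : IsUniversalDeformation p n F)
    (hn : 1 ≤ n) {k₀ k : ℕ} (hk : k₀ < k) :
    residue (powCoeff F k (p ^ k₀ • testExp p n)) = 0 := by
  have hp := (Fact.out : p.Prime)
  have hlt := pow_pred_lt (p := p) hn
  rw [residue_powCoeff hn]
  set N := p ^ k₀ • testExp p n with hNdef
  by_cases hdiv : ∀ i, p ^ k ∣ N i
  · choose M hM using hdiv
    have hN : N = p ^ k • Finsupp.equivFunOnFinite.symm M := by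
      ext i
      simp [hM i]
    rw [hN, coeff_frob_pow, MvPowerSeries.coeff_map, residue_coeff_low hF hn, zero_pow
      (pow_ne_zero _ hp.ne_zero)]
    · have := hM 0
      simp [hNdef, testExp_zero] at this ⊢
      intro h
      rw [h, mul_zero] at this
      exact absurd this (by positivity [hp.pos])
    · have := hM 1
      simp [hNdef, testExp_one] at this ⊢
      intro h
      rw [h, mul_zero] at this
      rcases Nat.mul_eq_zero.1 this with h' | h'
      · exact pow_ne_zero _ hp.ne_zero h'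
      · omega
    · have h2 : p ^ k₀ * p ^ n = p ^ k * (M 0 + M 1) := by
        rw [← testExp_degree (p := p) hn, Finsupp.degree_eq_sum, Fin.sum_univ_two, mul_add,
          mul_add, ← hM, ← hM]
        simp [hNdef]
      rw [Finsupp.degree_eq_sum, Fin.sum_univ_two]
      simp only [Finsupp.equivFunOnFinite_symm_apply_apply]
      have h3 : p ^ k * (M 0 + M 1) < p ^ k * p ^ n := by
        rw [← h2]
        exact Nat.mul_lt_mul_of_pos_right (Nat.pow_lt_pow_right hp.one_lt hk) (pow_pos hp.pos n)
      exact Nat.lt_of_mul_lt_mul_left h3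
  · push Not at hdiv
    obtain ⟨i, hi⟩ := hdiv
    exact coeff_frob_pow_eq_zero _ _ hi

theorem residue_powCoeff_self {F : FormalGroup (E0 p n)} (hF : IsUniversalDeformation p n F)
    (hn : 1 ≤ n) (k : ℕ) : residue (powCoeff F k (p ^ k • testExp p n)) ≠ 0 := by
  rw [residue_powCoeff hn, coeff_frob_pow, MvPowerSeries.coeff_map]
  exact pow_ne_zero _ (residue_coeff_test hF hn)

/-! ## Derivatives and the powers of the maximal ideal -/

theorem pderiv_mem_pow (i : Fin (n - 1)) {N : ℕ} {g : E0 p n}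
    (hg : g ∈ IsLocalRing.maximalIdeal (E0 p n) ^ (N + 1)) :
    MvPowerSeries.pderiv (WittVector p (GaloisField p n)) i g ∈
      IsLocalRing.maximalIdeal (E0 p n) ^ N := by
  induction N generalizing g with
  | zero => simp
  | succ N ih =>
    rw [pow_succ _ (N + 1)] at hg
    induction hg using Submodule.mul_induction_on' with
    | mem_mul_mem a ha b hb =>
      rw [Derivation.leibniz, smul_eq_mul, smul_eq_mul]
      refine Ideal.add_mem _ (Ideal.mul_mem_right _ _ ha) ?_
      rw [pow_succ' _ N]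
      exact Ideal.mul_mem_mul hb (ih ha)
    | add a _ b _ ha hb => rw [map_add]; exact Ideal.add_mem _ ha hb

theorem mem_pow_of_coeff_eq_zero (N : ℕ) {g : E0 p n}
    (hg : ∀ a : Fin (n - 1) →₀ ℕ, a.degree < N → MvPowerSeries.coeff a g = 0) :
    g ∈ IsLocalRing.maximalIdeal (E0 p n) ^ N := by
  induction N generalizing g with
  | zero => simp
  | succ N ih =>
    let gi : Fin (n - 1) → E0 p n := fun i a =>
      if ∀ j < i, a j = 0 then MvPowerSeries.coeff (a + Finsupp.single i 1) g else 0
    have hgi : ∀ i a, MvPowerSeries.coeff a (gi i) =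
        if ∀ j < i, a j = 0 then MvPowerSeries.coeff (a + Finsupp.single i 1) g else 0 :=
      fun i a => rfl
    have e : g = ∑ i, MvPowerSeries.X i * gi i := by
      ext1 a
      simp only [map_sum, MvPowerSeries.X, MvPowerSeries.coeff_monomial_mul, one_mul, hgi]
      by_cases ha : a = 0
      · subst ha
        rw [hg 0 (by simp)]
        exact (sum_eq_zero fun i _ => if_neg fun h => by simpa using h i).symm
      obtain ⟨i₀, hi₀, hmin⟩ : ∃ i₀, a i₀ ≠ 0 ∧ ∀ j < i₀, a j = 0 := by
        have hne : (univ.filter fun i => a i ≠ 0).Nonempty := by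
          obtain ⟨i, hi⟩ := Finsupp.ne_iff.1 ha
          exact ⟨i, by simpa using hi⟩
        refine ⟨(univ.filter fun i => a i ≠ 0).min' hne, (mem_filter.1 (min'_mem _ hne)).2, ?_⟩
        intro j hj
        by_contra hne'
        exact absurd (min'_le _ j (mem_filter.2 ⟨mem_univ _, hne'⟩)) (not_le.2 hj)
      rw [sum_eq_single i₀]
      · have hle : Finsupp.single i₀ 1 ≤ a := Finsupp.single_le_iff.2 (by omega)
        rw [if_pos hle, if_pos, tsub_add_cancel_of_le hle]
        intro j hj
        simp [hmin j hj]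
      · intro i _ hi
        split_ifs with h1 h2
        · exfalso
          have hai : 1 ≤ a i := Finsupp.single_le_iff.1 h1
          rcases lt_trichotomy i i₀ with h | h | h
          · have := hmin i h
            omega
          · exact hi h
          · have := h2 i₀ h
            simp [h.ne] at this
            exact hi₀ this
        all_goals rfl
      · simp
    rw [e, pow_succ']
    refine Submodule.sum_mem _ fun i _ => Ideal.mul_mem_mul (CPoint.X_mem_maximal i) (ih fun a ha => ?_)
    rw [hgi]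
    split_ifs
    · exact hg _ (by simp; omega)
    · rfl

/-- The divided derivative. -/
def hasse (N : Fin (n - 1) →₀ ℕ) (g : E0 p n) : E0 p n :=
  fun M => ((∏ j, (M j + N j).choose (N j) : ℕ) : WittVector p (GaloisField p n)) *
    MvPowerSeries.coeff (M + N) g

theorem coeff_hasse (N M : Fin (n - 1) →₀ ℕ) (g : E0 p n) :
    MvPowerSeries.coeff M (hasse N g) =
      ((∏ j, (M j + N j).choose (N j) : ℕ) : WittVector p (GaloisField p n)) *
        MvPowerSeries.coeff (M + N) g := rfl

theorem hasse_zero (g : E0 p n) : hasse 0 g = g := by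
  ext1 M
  simp [coeff_hasse]

theorem pderiv_hasse (i : Fin (n - 1)) (N : Fin (n - 1) →₀ ℕ) (g : E0 p n) :
    MvPowerSeries.pderiv (WittVector p (GaloisField p n)) i (hasse N g) =
      ((N i + 1 : ℕ) : E0 p n) * hasse (N + Finsupp.single i 1) g := by
  ext1 M
  rw [MvPowerSeries.coeff_pderiv, coeff_hasse,
    ← map_natCast (MvPowerSeries.C (σ := Fin (n - 1)) (R := WittVector p (GaloisField p n))),
    MvPowerSeries.coeff_C_mul, coeff_hasse, add_right_comm M _ N, ← add_assoc M N]
  have key : (M i + 1) * ∏ j : Fin (n - 1),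
      ((M + Finsupp.single i 1 : Fin (n - 1) →₀ ℕ) j + N j).choose (N j) =
      (N i + 1) * ∏ j : Fin (n - 1), (M j + (N + Finsupp.single i 1 : Fin (n - 1) →₀ ℕ) j).choose
        ((N + Finsupp.single i 1 : Fin (n - 1) →₀ ℕ) j) := by
    rw [← mul_prod_erase univ _ (mem_univ i), ← mul_prod_erase univ _ (mem_univ i),
      ← mul_assoc, ← mul_assoc]
    congr 1
    · simp only [Finsupp.add_apply, Finsupp.single_eq_same]
      have h := Nat.choose_succ_right_eq (M i + N i + 1) (N i)
      rw [show M i + 1 + N i = M i + N i + 1 by omega, ← add_assoc (M i) (N i) 1,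
        mul_comm (N i + 1), h, show M i + N i + 1 - N i = M i + 1 by omega, mul_comm]
    · refine prod_congr rfl fun j hj => ?_
      have hne : j ≠ i := (mem_erase.1 hj).1
      simp [Finsupp.single_eq_of_ne hne]
  rw [← mul_assoc, ← Nat.cast_mul, ← key]
  push_cast
  ring

end Vale.Agent.P217.Strat0
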