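import Vale.Agent.P217.J.Transform

/-!
# P217, block J: the stratum h = 0

A radical invariant ideal avoiding p is zero, from block B and the points of block C0.
-/

noncomputable section

namespace Vale.Agent.P217.Strat0

open Finset Filter
open scoped Topology Classical

variable {p n : ℕ} [Fact p.Prime] {K : Type} [NontriviallyNormedField K] [IsUltrametricDist K]

/-- A linear map out of a finite power of K is bounded. -/
theorem exists_functional_bound {m : ℕ} (φ : (Fin m → K) →ₗ[K] K) :
    ∃ C : ℝ, 0 ≤ C ∧ ∀ (v : Fin m → K) (V : ℝ), 0 ≤ V → (∀ t, ‖v t‖ ≤ V) → ‖φ v‖ ≤ C * V := by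
  refine ⟨∑ t, ‖φ (fun s => if t = s then 1 else 0)‖, sum_nonneg fun t _ => norm_nonneg _,
    fun v V hV hv => ?_⟩
  rw [LinearMap.pi_apply_eq_sum_univ φ v]
  refine IsUltrametricDist.norm_sum_le_of_forall_le_of_nonneg
    (mul_nonneg (sum_nonneg fun t _ => norm_nonneg _) hV) fun t _ => ?_
  rw [norm_smul, mul_comm]
  exact mul_le_mul (single_le_sum (f := fun t => ‖φ (fun s => if t = s then 1 else 0)‖)
    (fun _ _ => norm_nonneg _) (mem_univ t)) (hv t) (norm_nonneg _)
    (sum_nonneg fun t _ => norm_nonneg _)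

namespace Point

variable (P : Point p n K)

omit [IsUltrametricDist K] in
theorem norm_chi_unit {u : E0 p n} (hu : IsUnit u) : ‖P.chi u‖ = 1 :=
  P.norm_chi_of_residue_ne_zero (hu.map residue).ne_zero

omit [IsUltrametricDist K] in
theorem teich_injective :
    Function.Injective fun c : GaloisField p n =>
      P.chi (constants (WittVector.teichmuller p c)) := by
  intro c c' h
  by_contra hne
  have hu : IsUnit (constants (p := p) (n := n)
      (WittVector.teichmuller p c - WittVector.teichmuller p c')) := by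
    refine (WittVector.isUnit_of_coeff_zero_ne_zero _ ?_).map constants
    show WittVector.constantCoeff (WittVector.teichmuller p c - WittVector.teichmuller p c') ≠ 0
    rw [map_sub]
    exact sub_ne_zero.2 (by simpa using hne)
  have h1 := (hu.map P.chi).ne_zero
  simp only [map_sub] at h1
  exact h1 (sub_eq_zero.2 h)

omit [IsUltrametricDist K] in
/-- Only the zero functional kills all tangent vectors. -/
theorem functional_eq_zero (hn : 1 ≤ n) (φ : (Fin n → K) →ₗ[K] K) {u : ℕ} (hu : u < n)
    (hau : P.a u ≠ 0)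
    (hφ : ∀ j, j < n → ∀ c : GaloisField p n, φ (fun t : Fin n => P.vec j c t) = 0) : φ = 0 := by
  suffices ∀ t : Fin n, φ (fun s => if t = s then 1 else 0) = 0 by
    refine LinearMap.ext fun v => ?_
    rw [LinearMap.pi_apply_eq_sum_univ φ v, LinearMap.zero_apply]
    exact sum_eq_zero fun t _ => by rw [this t, smul_zero]
  intro t
  have hp := (Fact.out : p.Prime)
  have : Fintype (GaloisField p n) := Fintype.ofFinite _
  obtain ⟨j, hj, hjt⟩ : ∃ j, j < n ∧ shift n j t = u := by
    have htn := t.2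
    by_cases h : u ≤ t
    · exact ⟨t - u, by omega, by simp only [shift]; rw [if_pos (by omega)]; omega⟩
    · exact ⟨t + n - u, by omega, by simp only [shift]; rw [if_neg (by omega)]; omega⟩
  set β : Fin n → K := fun s =>
    φ (fun r => if s = r then 1 else 0) * ((if j ≤ (s : ℕ) then 1 else (p : K)) * P.a (shift n j s))
  have hσ : ∀ s : Fin n, shift n j s < n := fun s => by
    have := s.2; simp only [shift]; split_ifs <;> omega
  have hinj : ∀ s r : Fin n, shift n j s = shift n j r → s = r := fun s r h => by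
    have h1 := s.2
    have h2 := r.2
    refine Fin.ext ?_
    simp only [shift] at h
    split_ifs at h <;> omega
  set Q : Polynomial K := ∑ s : Fin n, Polynomial.C (β s) * Polynomial.X ^ p ^ shift n j s
  have heval : ∀ c : GaloisField p n,
      Q.eval (P.chi (constants (WittVector.teichmuller p c))) = 0 := by
    intro c
    have h := hφ j hj c
    rw [LinearMap.pi_apply_eq_sum_univ φ] at h
    rw [← h, Polynomial.eval_finsetSum]
    refine sum_congr rfl fun s _ => ?_
    simp only [β, vec, Polynomial.eval_mul, Polynomial.eval_C, Polynomial.eval_pow,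
      Polynomial.eval_X, smul_eq_mul]
    ring
  have hQ : Q = 0 := by
    refine Polynomial.eq_zero_of_natDegree_lt_card_of_eval_eq_zero Q P.teich_injective heval ?_
    have hcard : Fintype.card (GaloisField p n) = p ^ n := by
      rw [← Nat.card_eq_fintype_card, GaloisField.card p n (by omega)]
    rw [hcard]
    refine lt_of_le_of_lt (Polynomial.natDegree_sum_le_of_forall_le (n := p ^ (n - 1)) _ _ fun s _ => ?_)
      (Nat.pow_lt_pow_right hp.one_lt (by omega))
    refine (Polynomial.natDegree_C_mul_le _ _).trans ?_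
    rw [Polynomial.natDegree_X_pow]
    exact Nat.pow_le_pow_right hp.pos (by have := hσ s; omega)
  have hβ : β t = 0 := by
    have h := congrArg (fun q => Polynomial.coeff q (p ^ shift n j t)) hQ
    simp only [Q, Polynomial.finsetSum_coeff, Polynomial.coeff_C_mul, Polynomial.coeff_X_pow,
      Polynomial.coeff_zero] at h
    rw [sum_eq_single t] at h
    · simpa using h
    · intro s _ hs
      rw [if_neg, mul_zero]
      exact fun he => hs (hinj s t (Nat.pow_right_injective hp.two_le he).symm)
    · simp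
  simp only [β, hjt] at hβ
  refine (mul_eq_zero.1 hβ).resolve_right (mul_ne_zero ?_ hau)
  split_ifs
  · exact one_ne_zero
  · exact P.p_ne_zero

variable [CompleteSpace K] [CharZero K]

/-- If g vanishes at all moved points and at P, then all its derivatives vanish at P. -/
theorem chi_pderiv_eq_zero (hB : BlockB) (hn : 2 ≤ n) {F : FormalGroup (E0 p n)}
    (hF : IsUniversalDeformation p n F) {g : E0 p n} (hg0 : P.chi g = 0)
    (hgs : ∀ s, IsSymmetry F s → (P.move s).chi g = 0) (i : Fin (n - 1)) :
    P.chi (MvPowerSeries.pderiv (WittVector p (GaloisField p n)) i g) = 0 := by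
  have hn1 : 1 ≤ n := by omega
  have hp0 : (0 : ℝ) < p := by exact_mod_cast (Fact.out : p.Prime).pos
  have hinj := P.Tmap_injective hn1 hF
  have hfr : Module.finrank K (K × (Fin (n - 1) → K)) = Module.finrank K (Fin n → K) := by
    simp only [Module.finrank_prod, Module.finrank_self, Module.finrank_fintype_fun_eq_card,
      Fintype.card_fin]
    omega
  set e := (P.Tmap hn1).linearEquivOfInjective hinj hfr with he
  have hesymm : ∀ x, e.symm (P.Tmap hn1 x) = x := fun x => by
    rw [← LinearMap.linearEquivOfInjective_apply (f := P.Tmap hn1) hinj hfr x,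
      LinearEquiv.symm_apply_apply]
  obtain ⟨u, hu, hau⟩ : ∃ u, u < n ∧ P.a u ≠ 0 := by
    by_contra hall
    simp only [not_exists, not_and, not_not] at hall
    have h : P.Tmap hn1 ((1 : K), (0 : Fin (n - 1) → K)) = P.Tmap hn1 ((0 : K), 0) := by
      funext t
      show (1 : K) * P.a t + _ = (0 : K) * P.a t + _
      rw [hall t t.2, mul_zero, mul_zero]
    exact one_ne_zero (Prod.mk.inj (hinj h)).1
  let φi : Fin (n - 1) → (Fin n → K) →ₗ[K] K := fun i =>
    (LinearMap.proj i).comp ((LinearMap.snd K K (Fin (n - 1) → K)).comp e.symm.toLinearMap)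
  set γ : Fin (n - 1) → K :=
    fun i => P.chi (MvPowerSeries.pderiv (WittVector p (GaloisField p n)) i g) with hγ
  set φ : (Fin n → K) →ₗ[K] K := ∑ i, γ i • φi i with hφdef
  suffices hφ : φ = 0 by
    have h1 := LinearMap.congr_fun hφ (P.Tmap hn1 ((0 : K), Pi.single i 1))
    simpa [φ, φi, hesymm, Pi.single_apply] using h1
  refine P.functional_eq_zero hn1 φ hu hau fun j hj c => ?_
  choose Ci hCi0 hCi using fun i => exists_functional_bound (φi i)
  obtain ⟨Cφ, hCφ0, hCφ⟩ := exists_functional_bound φ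
  obtain ⟨C, hC0, hC⟩ := P.exists_taylor hn1
  set v : Fin n → K := fun t => P.vec j c t with hv
  set V := ‖v‖ with hVdef
  set K1 := ∑ i, Ci i with hK1def
  have hK1 : 0 ≤ K1 := sum_nonneg fun i _ => hCi0 i
  obtain ⟨l₂, s, ψ, hsym, hcong⟩ := hB p n hn F hF (Pi.single j c)
  obtain ⟨N, hN⟩ : ∃ N, P.r ^ N * (K1 * C + 1) < 1 := by
    have h := (tendsto_pow_atTop_nhds_zero_of_lt_one P.r_pos.le P.r_lt).mul_const (K1 * C + 1)
    rw [zero_mul] at h
    exact (h.eventually_lt_const zero_lt_one).exists
  obtain ⟨lN, hlN⟩ := hcong N 0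
  have hest : ∀ l, max (max 1 l₂) lN ≤ l →
      ‖φ v‖ ≤ (1 + Cφ * C) * (K1 * V) ^ 2 * ((p : ℝ)⁻¹) ^ l := by
    intro l hl
    obtain ⟨hS, hconst, hres⟩ := hsym l (by omega)
    set P' := P.move (s l) with hP'
    set η := P.disp P' with hηdef
    set E := ‖η‖ with hEdef
    have hE0 : 0 ≤ E := norm_nonneg _
    have hEN : E ≤ P.r ^ N := by
      refine (pi_norm_le_iff_of_nonneg (pow_nonneg P.r_pos.le _)).2 fun i => ?_
      have h := (hlN l (by omega)).1 (i + 1)
      rw [show vv p n (i + 1) = MvPowerSeries.X i by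
        rw [vv, dif_pos ⟨by omega, by omega⟩]; congr 1] at h
      have := P.norm_chi_pow_mem h
      rwa [map_sub] at this
    have hE1 : E ≤ 1 := hEN.trans (pow_le_one₀ P.r_pos.le P.r_lt.le)
    have hcc : ∀ w, P'.chi (constants w) = P.chi (constants w) := fun w =>
      congrArg P.chi (hconst w)
    set t₀ := P.chi (PowerSeries.coeff 1 (ψ l)) with ht₀
    have ht₀1 : ‖t₀‖ = 1 := P.norm_chi_unit hS.2.2.1
    set R : Fin n → K := fun t => P'.a t - P.a t - P.A η t with hRdef
    have hRb : ∀ t, ‖R t‖ ≤ C * E ^ 2 := fun t =>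
      hC P' hcc rfl E hE0 hE1 (norm_le_pi_norm η) t t.2
    have hT : (p : K) ^ l • v - t₀ • R = P.Tmap hn1 (t₀ - 1, t₀ • η) := by
      funext t
      have h1 := P.periods_move hF hS (by omega : 1 ≤ l) hj c hres t.2
      have h2 : P.A (t₀ • η) t = t₀ * P.A η t := by
        have h3 := congrFun ((P.Tmap hn1).map_smul t₀ ((0 : K), η)) t
        simpa [Tmap] using h3
      show (p : K) ^ l * P.vec j c t - t₀ * (P'.a t - P.a t - P.A η t) =
        (t₀ - 1) * P.a t + P.A (t₀ • η) t
      rw [h2]
      linear_combination -h1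
    have hvb : ∀ t, ‖((p : K) ^ l • v - t₀ • R) t‖ ≤ max (((p : ℝ)⁻¹) ^ l * V) (C * E ^ 2) := by
      intro t
      rw [Pi.sub_apply, Pi.smul_apply, Pi.smul_apply, sub_eq_add_neg]
      refine (IsUltrametricDist.norm_add_le_max _ _).trans (max_le_max ?_ ?_)
      · rw [norm_smul, norm_pow, P.norm_p]
        gcongr
        exact norm_le_pi_norm v t
      · rw [norm_neg, norm_smul, ht₀1, one_mul]
        exact hRb t
    have hEb : E ≤ K1 * max (((p : ℝ)⁻¹) ^ l * V) (C * E ^ 2) := by
      refine (pi_norm_le_iff_of_nonneg (mul_nonneg hK1 (le_max_of_le_right (by positivity)))).2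
        fun i => ?_
      have h1 : φi i ((p : K) ^ l • v - t₀ • R) = t₀ * η i := by
        rw [hT]
        simp [φi, hesymm]
      calc ‖η i‖ = ‖φi i ((p : K) ^ l • v - t₀ • R)‖ := by rw [h1, norm_mul, ht₀1, one_mul]
        _ ≤ Ci i * max (((p : ℝ)⁻¹) ^ l * V) (C * E ^ 2) :=
            hCi i _ _ (le_max_of_le_right (by positivity)) hvb
        _ ≤ _ := mul_le_mul_of_nonneg_right
            (single_le_sum (f := Ci) (fun i _ => hCi0 i) (mem_univ i))
            (le_max_of_le_right (by positivity))
    have hEl : E ≤ K1 * (((p : ℝ)⁻¹) ^ l * V) := by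
      rcases max_cases (((p : ℝ)⁻¹) ^ l * V) (C * E ^ 2) with ⟨h, -⟩ | ⟨h, -⟩
      · rwa [h] at hEb
      · rw [h] at hEb
        have hsmall : K1 * C * E < 1 := by
          refine lt_of_le_of_lt ?_ hN
          calc K1 * C * E ≤ (K1 * C + 1) * P.r ^ N :=
                mul_le_mul (by linarith) hEN hE0 (by positivity)
            _ = _ := by ring
        have hzero : E = 0 := by
          by_contra hne
          have hpos : 0 < E := lt_of_le_of_ne hE0 (Ne.symm hne)
          nlinarith
        rw [hzero]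
        positivity
    have hdel : ‖P.del η g‖ ≤ E ^ 2 := by
      have h := rem_le (P := P) (P' := P') hcc rfl hE0 hE1 (norm_le_pi_norm η) g
      have h2 : P'.chi g = 0 := hgs _ hS.1
      rw [rem, h2, hg0, sub_zero, zero_sub, norm_neg] at h
      exact h
    have hφT : φ ((p : K) ^ l • v - t₀ • R) = t₀ * P.del η g := by
      rw [hT]
      simp only [φ, φi, LinearMap.sum_apply, LinearMap.smul_apply,
        LinearMap.comp_apply, LinearEquiv.coe_coe, hesymm, LinearMap.snd_apply,
        LinearMap.proj_apply, Pi.smul_apply, smul_eq_mul, del, mul_sum, hγ]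
      exact sum_congr rfl fun i _ => by ring
    have hkey : ‖(p : K) ^ l * φ v‖ ≤ (1 + Cφ * C) * E ^ 2 := by
      have e1 : (p : K) ^ l * φ v = φ ((p : K) ^ l • v - t₀ • R) + t₀ * φ R := by
        rw [map_sub, map_smul, map_smul, smul_eq_mul, smul_eq_mul]
        ring
      rw [e1, hφT]
      refine (IsUltrametricDist.norm_add_le_max _ _).trans (max_le ?_ ?_)
      · rw [norm_mul, ht₀1, one_mul]
        nlinarith [mul_nonneg (mul_nonneg hCφ0 hC0) (sq_nonneg E)]
      · rw [norm_mul, ht₀1, one_mul]
        refine (hCφ R _ (by positivity) hRb).trans ?_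
        nlinarith [sq_nonneg E]
    rw [norm_mul, norm_pow, P.norm_p] at hkey
    have hpl : 0 < ((p : ℝ)⁻¹) ^ l := pow_pos (inv_pos.2 hp0) l
    refine le_of_mul_le_mul_left (hkey.trans ?_) hpl
    calc (1 + Cφ * C) * E ^ 2 ≤ (1 + Cφ * C) * (K1 * (((p : ℝ)⁻¹) ^ l * V)) ^ 2 := by gcongr
      _ = _ := by ring
  have hlim : Tendsto (fun l : ℕ => (1 + Cφ * C) * (K1 * V) ^ 2 * ((p : ℝ)⁻¹) ^ l) atTop (𝓝 0) := by
    simpa using (tendsto_pow_atTop_nhds_zero_of_lt_one (inv_nonneg.2 hp0.le)
      (lt_of_le_of_lt P.r_ge P.r_lt)).const_mul ((1 + Cφ * C) * (K1 * V) ^ 2)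
  exact norm_le_zero_iff.1 (ge_of_tendsto hlim (eventually_atTop.2 ⟨_, hest⟩))

end Point

theorem residue_pow_card_sub_one (hn : 1 ≤ n) {a : E0 p n} (ha : residue a ≠ 0) :
    a ^ (p ^ n - 1) - 1 ∈ IsLocalRing.maximalIdeal (E0 p n) := by
  have : Fintype (GaloisField p n) := Fintype.ofFinite _
  rw [CPoint.mem_maximal_iff, map_sub, map_pow, map_one, ← GaloisField.card p n (by omega),
    Nat.card_eq_fintype_card, FiniteField.pow_card_sub_one_eq_one _ ha, sub_self]

theorem norm_natCast_padicComplex : ‖(p : PadicComplex p)‖ = (p : ℝ)⁻¹ := by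
  rw [← map_natCast (algebraMap ℚ_[p] (PadicComplex p)), norm_algebraMap', Padic.norm_p]

/-- A ring map with small values on the maximal ideal gives a point. -/
theorem exists_point (hn : 1 ≤ n) (χ : E0 p n →+* PadicComplex p)
    (h : ∀ a ∈ IsLocalRing.maximalIdeal (E0 p n), ‖χ a‖ < 1) :
    ∃ P : Point p n (PadicComplex p), P.chi = χ := by
  have hle : ∀ a, ‖χ a‖ ≤ 1 := by
    intro a
    by_cases ha : residue a = 0
    · exact (h a (CPoint.mem_maximal_iff.2 ha)).le
    have hm := h _ (residue_pow_card_sub_one hn ha)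
    rw [map_sub, map_pow, map_one] at hm
    have h1 : ‖χ a ^ (p ^ n - 1)‖ ≤ 1 := by
      have := IsUltrametricDist.norm_add_le_max (χ a ^ (p ^ n - 1) - 1) 1
      rw [sub_add_cancel, norm_one] at this
      exact this.trans (max_le hm.le le_rfl)
    rw [norm_pow] at h1
    refine (pow_le_one_iff_of_nonneg (norm_nonneg _) ?_).1 h1
    have := Nat.one_lt_pow (by omega : n ≠ 0) (Fact.out : p.Prime).one_lt
    omega
  obtain ⟨S, hS⟩ := IsNoetherian.noetherian (IsLocalRing.maximalIdeal (E0 p n))
  set T : Finset ℝ := insert (p : ℝ)⁻¹ (S.image fun a => ‖χ a‖) with hT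
  set r := T.max' (insert_nonempty _ _) with hr
  have hr0 : (p : ℝ)⁻¹ ≤ r := le_max' _ _ (mem_insert_self _ _)
  have hrS : ∀ a ∈ S, ‖χ a‖ ≤ r := fun a ha =>
    le_max' _ _ (mem_insert_of_mem (mem_image_of_mem (fun a => ‖χ a‖) ha))
  have hr1 : r < 1 := by
    refine (max'_lt_iff _ _).2 fun x hx => ?_
    simp only [hT, mem_insert, mem_image] at hx
    rcases hx with rfl | ⟨a, ha, rfl⟩
    · exact inv_lt_one_of_one_lt₀ (by exact_mod_cast (Fact.out : p.Prime).one_lt)
    · exact h a (hS ▸ Submodule.subset_span ha)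
  have hr0' : 0 ≤ r := le_trans (by positivity) hr0
  have hsmall : ∀ a ∈ IsLocalRing.maximalIdeal (E0 p n), ‖χ a‖ ≤ r := fun a ha => by
    rw [← hS] at ha
    induction ha using Submodule.span_induction with
    | mem x hx => exact hrS x hx
    | zero => rw [map_zero, norm_zero]; exact hr0'
    | add x y _ _ hx hy =>
      rw [map_add]
      exact (IsUltrametricDist.norm_add_le_max _ _).trans (max_le hx hy)
    | smul c x _ hx =>
      rw [smul_eq_mul, map_mul, norm_mul]
      exact (mul_le_of_le_one_left (norm_nonneg _) (hle c)).trans hx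
  exact ⟨⟨χ, r, hr0, hr1, hsmall, hle, norm_natCast_padicComplex⟩, rfl⟩

theorem hasse_C_mul (N : Fin (n - 1) →₀ ℕ) (w : WittVector p (GaloisField p n)) (g : E0 p n) :
    hasse N (MvPowerSeries.C w * g) = MvPowerSeries.C w * hasse N g := by
  ext1 M
  rw [coeff_hasse, MvPowerSeries.coeff_C_mul, MvPowerSeries.coeff_C_mul, coeff_hasse]
  ring

/-- A nonzero element is a power of p times an element with a unit coefficient. -/
theorem exists_content {g : E0 p n} (hg : g ≠ 0) : ∃ (e : ℕ) (g₁ : E0 p n) (N : Fin (n - 1) →₀ ℕ),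
    g = MvPowerSeries.C ((p : WittVector p (GaloisField p n)) ^ e) * g₁ ∧
      IsUnit (MvPowerSeries.coeff N g₁) := by
  have hex : ∃ e, ∃ N, ∃ b : WittVector p (GaloisField p n), b.coeff 0 ≠ 0 ∧
      MvPowerSeries.coeff N g = (p : WittVector p (GaloisField p n)) ^ e * b := by
    obtain ⟨N, hN⟩ : ∃ N, MvPowerSeries.coeff N g ≠ 0 := by
      by_contra hall
      simp only [not_exists, not_not] at hall
      exact hg (MvPowerSeries.ext fun N => by simp [hall N])
    obtain ⟨e, b, hb, he⟩ := WittVector.exists_eq_pow_p_mul _ hN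
    exact ⟨e, N, b, hb, he⟩
  obtain ⟨N, b, hb, hNb⟩ := Nat.find_spec hex
  set e := Nat.find hex with hedef
  have hdiv : ∀ M, ∃ d : WittVector p (GaloisField p n),
      MvPowerSeries.coeff M g = (p : WittVector p (GaloisField p n)) ^ e * d := by
    intro M
    by_cases hM : MvPowerSeries.coeff M g = 0
    · exact ⟨0, by rw [hM, mul_zero]⟩
    obtain ⟨e', b', hb', he'⟩ := WittVector.exists_eq_pow_p_mul _ hM
    refine ⟨(p : WittVector p (GaloisField p n)) ^ (e' - e) * b', ?_⟩
    rw [he', ← mul_assoc, ← pow_add, Nat.add_sub_cancel' (Nat.find_min' hex ⟨M, b', hb', he'⟩)]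
  choose d hd using hdiv
  let g₁ : E0 p n := d
  have hg₁ : ∀ M, MvPowerSeries.coeff M g =
      (p : WittVector p (GaloisField p n)) ^ e * MvPowerSeries.coeff M g₁ := hd
  refine ⟨e, g₁, N, ?_, ?_⟩
  · ext1 M
    rw [MvPowerSeries.coeff_C_mul, hg₁ M]
  · have hdb : MvPowerSeries.coeff N g₁ = b := by
      refine mul_left_cancel₀ (pow_ne_zero e (WittVector.p_nonzero p (GaloisField p n))) ?_
      exact (hg₁ N).symm.trans hNb
    rw [hdb]
    exact WittVector.isUnit_of_coeff_zero_ne_zero _ hb

end Vale.Agent.P217.Strat0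

namespace Vale.Agent.P217

open Finset Strat0

/-- Block J: an invariant radical ideal not containing p is zero. -/
theorem blockJ (hB : BlockB) (hC0 : BlockC0) : BlockJ := by
  intro p n _ hn F hF J hrad hinv hpJ
  obtain ⟨χ₀, hχJ, hχ1⟩ := hC0 p n hn J hrad hpJ
  obtain ⟨P₀, hP₀⟩ := exists_point hn χ₀ hχ1
  set I : Set (E0 p n) := {g | ∀ P : Point p n (PadicComplex p), (∀ a ∈ J, P.chi a = 0) →
    P.chi g = 0} with hI
  have hclosed : ∀ g ∈ I, ∀ i : Fin (n - 1),
      MvPowerSeries.pderiv (WittVector p (GaloisField p n)) i g ∈ I := by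
    intro g hg i P hP
    refine P.chi_pderiv_eq_zero hB (by have := i.2; omega) hF (hg P hP) (fun s hs => ?_) i
    refine hg _ fun a ha => ?_
    refine hP _ ?_
    rw [← hinv s hs]
    exact Ideal.mem_map_of_mem _ ha
  rw [eq_bot_iff]
  intro g hg
  rw [Ideal.mem_bot]
  by_contra hne
  have hgI : g ∈ I := fun P hP => hP g hg
  have hhasse : ∀ (m : ℕ) (N : Fin (n - 1) →₀ ℕ), N.degree = m → hasse N g ∈ I := by
    intro m
    induction m with
    | zero =>
      intro N hN
      rw [(Finsupp.degree_eq_zero_iff N).1 hN, hasse_zero]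
      exact hgI
    | succ m ih =>
      intro N hN
      obtain ⟨i, hi⟩ : ∃ i, N i ≠ 0 := by
        by_contra hall
        simp only [not_exists, not_not] at hall
        have : N = 0 := Finsupp.ext hall
        simp [this] at hN
      set N' := N - Finsupp.single i 1
      have hsplit : N' + Finsupp.single i 1 = N :=
        tsub_add_cancel_of_le (Finsupp.single_le_iff.2 (by omega))
      have hdeg : N'.degree = m := by
        have h := congrArg Finsupp.degree hsplit
        rw [map_add, Finsupp.degree_single, hN] at h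
        omega
      intro P hP
      have h := hclosed _ (ih N' hdeg) i P hP
      rw [pderiv_hasse, hsplit, map_mul, map_natCast] at h
      exact (mul_eq_zero.1 h).resolve_left (Nat.cast_ne_zero.2 (by omega))
  obtain ⟨e, g₁, N, hge, hu⟩ := exists_content hne
  have hunit : IsUnit (hasse N g₁) := by
    rw [MvPowerSeries.isUnit_iff_constantCoeff, ← MvPowerSeries.coeff_zero_eq_constantCoeff_apply,
      coeff_hasse]
    simpa using hu
  have h0 := hhasse _ N rfl P₀ (by rw [hP₀]; exact hχJ)
  rw [hge, hasse_C_mul, map_mul] at h0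
  rcases mul_eq_zero.1 h0 with h | h
  · rw [map_pow, map_natCast, map_pow, map_natCast] at h
    exact pow_ne_zero e P₀.p_ne_zero h
  · exact (hunit.map P₀.chi).ne_zero h

end Vale.Agent.P217
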