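import Vale.Agent.P217.J.Rec
import Vale.Agent.P217.J.Alg

/-!
# P217, block J: periods at a point, their first derivatives, and the immersion property
-/

noncomputable section

namespace Vale.Agent.P217.Strat0

open Finset Filter
open scoped Topology Classical

/-- A point of the open disc over a field of characteristic zero. -/
structure Point (p n : ℕ) [Fact p.Prime] (K : Type) [NontriviallyNormedField K] where
  /-- the ring map -/
  chi : E0 p n →+* K
  /-- the radius -/
  r : ℝ
  r_ge : (p : ℝ)⁻¹ ≤ r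
  r_lt : r < 1
  small : ∀ a ∈ IsLocalRing.maximalIdeal (E0 p n), ‖chi a‖ ≤ r
  norm_le : ∀ a, ‖chi a‖ ≤ 1
  norm_p : ‖(p : K)‖ = (p : ℝ)⁻¹

variable {p n : ℕ} [Fact p.Prime] {K : Type} [NontriviallyNormedField K] [IsUltrametricDist K]

namespace Point

variable (P P' : Point p n K)

omit [IsUltrametricDist K] in
theorem r_pos : 0 < P.r :=
  lt_of_lt_of_le (inv_pos.2 (by exact_mod_cast (Fact.out : p.Prime).pos)) P.r_ge

omit [IsUltrametricDist K] in
include P in
theorem p_ne_zero : (p : K) ≠ 0 := by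
  rw [← norm_pos_iff, P.norm_p]
  exact inv_pos.2 (by exact_mod_cast (Fact.out : p.Prime).pos)

/-- The parameters at the point. -/
def x (i : ℕ) : K := P.chi (vv p n i)

/-- The logarithm coefficients at the point. -/
def M (k : ℕ) : K := P.chi (mu p n k) / (p : K) ^ k

/-- The derivative in the direction η at the point. -/
def del (η : Fin (n - 1) → K) (g : E0 p n) : K :=
  ∑ i, η i * P.chi (MvPowerSeries.pderiv (WittVector p (GaloisField p n)) i g)

/-- The derivatives of the logarithm coefficients in the direction η. -/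
def D (η : Fin (n - 1) → K) (k : ℕ) : K := P.del η (mu p n k) / (p : K) ^ k

variable {η : Fin (n - 1) → K}

omit [IsUltrametricDist K] in
theorem del_add (g h : E0 p n) : P.del η (g + h) = P.del η g + P.del η h := by
  simp only [del, map_add, mul_add, sum_add_distrib]

omit [IsUltrametricDist K] in
theorem del_zero : P.del η 0 = 0 := by simp [del]

omit [IsUltrametricDist K] in
theorem del_sum {ι : Type*} (s : Finset ι) (g : ι → E0 p n) :
    P.del η (∑ j ∈ s, g j) = ∑ j ∈ s, P.del η (g j) := by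
  simp only [del, map_sum, mul_sum]
  exact sum_comm

omit [IsUltrametricDist K] in
theorem del_mul (g h : E0 p n) :
    P.del η (g * h) = P.del η g * P.chi h + P.chi g * P.del η h := by
  simp only [del, Derivation.leibniz, smul_eq_mul, map_add, map_mul, sum_mul, mul_sum,
    ← sum_add_distrib]
  exact sum_congr rfl fun i _ => by ring

omit [IsUltrametricDist K] in
theorem del_natCast (m : ℕ) : P.del η (m : E0 p n) = 0 := by
  rw [← map_natCast (MvPowerSeries.C (σ := Fin (n - 1)) (R := WittVector p (GaloisField p n)))]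
  simp [del]

omit [IsUltrametricDist K] in
theorem del_natCast_mul (m : ℕ) (g : E0 p n) : P.del η (m * g) = m * P.del η g := by
  rw [del_mul, del_natCast, zero_mul, zero_add, map_natCast]

omit [IsUltrametricDist K] in
theorem del_pow (g : E0 p n) (e : ℕ) :
    P.del η (g ^ e) = e * P.chi g ^ (e - 1) * P.del η g := by
  simp only [del, MvPowerSeries.pderiv_pow, map_mul, map_pow, map_natCast, mul_sum]
  exact sum_congr rfl fun i _ => by ring

theorem norm_del_le {E : ℝ} (hE : 0 ≤ E) (hη : ∀ i, ‖η i‖ ≤ E) (g : E0 p n) :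
    ‖P.del η g‖ ≤ E := by
  refine IsUltrametricDist.norm_sum_le_of_forall_le_of_nonneg hE fun i _ => ?_
  rw [norm_mul]
  exact (mul_le_of_le_one_right (norm_nonneg _) (P.norm_le _)).trans (hη i)

omit [IsUltrametricDist K] in
theorem pow_mem_norm {N : ℕ} {a : E0 p n} (ha : a ∈ IsLocalRing.maximalIdeal (E0 p n) ^ N)
    (hult : ∀ u v : K, ‖u + v‖ ≤ max ‖u‖ ‖v‖) : ‖P.chi a‖ ≤ P.r ^ N := by
  induction N generalizing a with
  | zero => simpa using P.norm_le a
  | succ N ih =>
    rw [pow_succ] at ha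
    induction ha using Submodule.mul_induction_on' with
    | mem_mul_mem b hb c hc =>
      rw [map_mul, norm_mul, pow_succ]
      exact mul_le_mul (ih hb) (P.small c hc) (norm_nonneg _) (pow_nonneg P.r_pos.le _)
    | add b _ c _ hb hc =>
      rw [map_add]
      exact (hult _ _).trans (max_le hb hc)

theorem norm_chi_pow_mem {N : ℕ} {a : E0 p n}
    (ha : a ∈ IsLocalRing.maximalIdeal (E0 p n) ^ N) : ‖P.chi a‖ ≤ P.r ^ N :=
  P.pow_mem_norm ha IsUltrametricDist.norm_add_le_max

omit [IsUltrametricDist K] in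
theorem pars (hn : 1 ≤ n) : Pars n P.r P.x where
  n_pos := hn
  top := by simp [x, vv_self]
  high i hi := by simp [x, vv_eq_zero p n hi]
  low i _ hi := P.small _ (vv_mem hi)

omit [IsUltrametricDist K] in
theorem M_zero : P.M 0 = 1 := by simp [M, mu_zero]

omit [IsUltrametricDist K] in
theorem D_zero : P.D η 0 = 0 := by
  have := P.del_natCast (η := η) 1
  rw [Nat.cast_one] at this
  simp [D, mu_zero, this]

omit [IsUltrametricDist K] in
include P in
theorem norm_div_pow (a : K) (k : ℕ) : ‖a / (p : K) ^ k‖ = ‖a‖ * (p : ℝ) ^ k := by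
  rw [norm_div, norm_pow, P.norm_p, inv_pow, div_inv_eq_mul]

omit [IsUltrametricDist K] in
theorem norm_M_le (k : ℕ) : ‖P.M k‖ ≤ (p : ℝ) ^ k := by
  rw [M, P.norm_div_pow]
  exact mul_le_of_le_one_left (by positivity) (P.norm_le _)

omit [IsUltrametricDist K] in
include P in
theorem scaled (a : K) {j k : ℕ} (hj : j ≤ k) :
    (p : K) * ((p : K) ^ (k - j) * a / (p : K) ^ (k + 1)) = a / (p : K) ^ j := by
  have hp := P.p_ne_zero
  rw [pow_succ]
  conv_lhs => rw [show k = k - j + j by omega]
  rw [Nat.add_sub_cancel, pow_add]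
  field_simp

omit [IsUltrametricDist K] in
theorem M_rec : Rec p P.x 0 P.M := by
  intro k
  rw [Pi.zero_apply, add_zero, M, mu_succ, map_sum, sum_div, mul_sum]
  refine sum_congr rfl fun j hj => ?_
  rw [mem_range] at hj
  simp only [map_mul, map_pow, map_natCast, mul_assoc]
  rw [P.scaled _ (by omega), M, x]
  ring

/-- The inhomogeneous part of the recursion of the derivatives. -/
def wD (η : Fin (n - 1) → K) (k : ℕ) : K :=
  ∑ j ∈ range (k + 1), P.M j * P.del η (vv p n (k + 1 - j) ^ p ^ j)

omit [IsUltrametricDist K] in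
theorem D_rec : Rec p P.x (P.wD η) (P.D η) := by
  intro k
  rw [D, mu_succ, del_sum, sum_div, mul_sum, wD, ← sum_add_distrib]
  refine sum_congr rfl fun j hj => ?_
  rw [mem_range] at hj
  rw [mul_assoc, show (p : E0 p n) ^ (k - j) = ((p ^ (k - j) : ℕ) : E0 p n) by push_cast; rfl,
    del_natCast_mul, Nat.cast_pow, P.scaled _ (by omega), del_mul, map_pow, D, M, x]
  ring

theorem norm_wD_le {E : ℝ} (hE : 0 ≤ E) (hη : ∀ i, ‖η i‖ ≤ E) (k : ℕ) : ‖P.wD η k‖ ≤ E := by
  refine IsUltrametricDist.norm_sum_le_of_forall_le_of_nonneg hE fun j _ => ?_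
  rw [del_pow, norm_mul, norm_mul, norm_mul, Nat.cast_pow, norm_pow, P.norm_p, norm_pow]
  have h1 : ‖P.M j‖ * ((p : ℝ)⁻¹) ^ j ≤ 1 := by
    rw [inv_pow, mul_inv_le_iff₀ (by have := (Fact.out : p.Prime).pos; positivity), one_mul]
    exact P.norm_M_le j
  calc ‖P.M j‖ * (((p : ℝ)⁻¹) ^ j * ‖P.chi (vv p n (k + 1 - j))‖ ^ (p ^ j - 1) *
        ‖P.del η (vv p n (k + 1 - j))‖)
      ≤ ‖P.M j‖ * (((p : ℝ)⁻¹) ^ j * 1 * E) := by
        gcongr
        · exact pow_le_one₀ (norm_nonneg _) (P.norm_le _)
        · exact P.norm_del_le hE hη _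
    _ = ‖P.M j‖ * ((p : ℝ)⁻¹) ^ j * E := by ring
    _ ≤ E := mul_le_of_le_one_left hE h1

/-- The periods at the point. -/
def a (s : ℕ) : K := per p n P.M s

/-- Their derivatives in the direction η. -/
def A (η : Fin (n - 1) → K) (s : ℕ) : K := per p n (P.D η) s

variable [CompleteSpace K]

theorem exists_per_le (hn : 1 ≤ n) :
    ∃ B : ℝ, 0 ≤ B ∧ ∀ s, s < n →
      (Tendsto (fun L => (p : K) ^ L * P.M (s + n * L)) atTop (𝓝 (P.a s)) ∧ ‖P.a s‖ ≤ B) ∧
      ∀ (η : Fin (n - 1) → K) (E : ℝ), 0 ≤ E → (∀ i, ‖η i‖ ≤ E) →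
        Tendsto (fun L => (p : K) ^ L * P.D η (s + n * L)) atTop (𝓝 (P.A η s)) ∧
          ‖P.A η s‖ ≤ B * E := by
  obtain ⟨B, hB, h⟩ := exists_per_bound (K := K) n (Fact.out : p.Prime).two_le P.norm_p
    P.r_pos.le P.r_lt
  refine ⟨B, hB, fun s hs => ⟨?_, fun η E hE hη => ?_⟩⟩
  · have := h P.x 0 P.M 1 (P.pars hn) P.M_rec (fun k => by simp) (by simp [M_zero]) s hs
    simpa [a] using this
  · exact h P.x (P.wD η) (P.D η) E (P.pars hn) P.D_rec (P.norm_wD_le hE hη)
      (by rw [D_zero, norm_zero]; exact hE) s hs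

theorem tendsto_M (hn : 1 ≤ n) {s : ℕ} (hs : s < n) :
    Tendsto (fun L => (p : K) ^ L * P.M (s + n * L)) atTop (𝓝 (P.a s)) := by
  obtain ⟨B, -, h⟩ := P.exists_per_le hn
  exact (h s hs).1.1

theorem tendsto_D (hn : 1 ≤ n) {s : ℕ} (hs : s < n) (η : Fin (n - 1) → K) :
    Tendsto (fun L => (p : K) ^ L * P.D η (s + n * L)) atTop (𝓝 (P.A η s)) := by
  obtain ⟨B, -, h⟩ := P.exists_per_le hn
  exact ((h s hs).2 η (∑ i, ‖η i‖) (sum_nonneg fun i _ => norm_nonneg _)
    fun i => single_le_sum (f := fun i => ‖η i‖) (fun i _ => norm_nonneg _) (mem_univ i)).1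

omit [CompleteSpace K] [IsUltrametricDist K] in
theorem D_add (η η' : Fin (n - 1) → K) (k : ℕ) : P.D (η + η') k = P.D η k + P.D η' k := by
  simp [D, del, add_mul, sum_add_distrib, add_div]

omit [CompleteSpace K] [IsUltrametricDist K] in
theorem D_smul (c : K) (η : Fin (n - 1) → K) (k : ℕ) : P.D (c • η) k = c * P.D η k := by
  simp [D, del, mul_sum, mul_div_assoc', mul_assoc]

/-- The differential of the period map together with the period vector. -/
def Tmap (hn : 1 ≤ n) : (K × (Fin (n - 1) → K)) →ₗ[K] (Fin n → K) where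
  toFun v s := v.1 * P.a s + P.A v.2 s
  map_add' v w := by
    funext s
    have h : P.A (v.2 + w.2) s = P.A v.2 s + P.A w.2 s := by
      refine tendsto_nhds_unique (P.tendsto_D hn s.2 _) ?_
      simpa [D_add, mul_add] using (P.tendsto_D hn s.2 v.2).add (P.tendsto_D hn s.2 w.2)
    simp only [Prod.fst_add, Prod.snd_add, Pi.add_apply, h]
    ring
  map_smul' c v := by
    funext s
    have h : P.A (c • v.2) s = c * P.A v.2 s := by
      refine tendsto_nhds_unique (P.tendsto_D hn s.2 _) ?_
      simpa [D_smul, mul_left_comm] using (P.tendsto_D hn s.2 v.2).const_mul c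
    simp only [Prod.smul_fst, Prod.smul_snd, smul_eq_mul, RingHom.id_apply, Pi.smul_apply, h]
    ring

/-- Derivatives of the coefficients of a series, as a series. -/
def delSeries (η : Fin (n - 1) → K) (G : MvPowerSeries (Fin 2) (E0 p n)) :
    MvPowerSeries (Fin 2) K :=
  fun b => P.del η (MvPowerSeries.coeff b G)

omit [CompleteSpace K] [IsUltrametricDist K] in
theorem delSeries_mul (G H : MvPowerSeries (Fin 2) (E0 p n)) :
    P.delSeries η (G * H) = P.delSeries η G * MvPowerSeries.map P.chi H +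
      MvPowerSeries.map P.chi G * P.delSeries η H := by
  ext1 b
  rw [map_add, MvPowerSeries.coeff_mul, MvPowerSeries.coeff_mul, ← sum_add_distrib]
  show P.del η (MvPowerSeries.coeff b (G * H)) = _
  rw [MvPowerSeries.coeff_mul, del_sum]
  refine sum_congr rfl fun x _ => ?_
  rw [del_mul, MvPowerSeries.coeff_map, MvPowerSeries.coeff_map]
  rfl

omit [CompleteSpace K] [IsUltrametricDist K] in
theorem delSeries_pow (G : MvPowerSeries (Fin 2) (E0 p n)) (e : ℕ) :
    P.delSeries η (G ^ (e + 1)) =
      ((e + 1 : ℕ) : MvPowerSeries (Fin 2) K) *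
        (MvPowerSeries.map P.chi (G ^ e) * P.delSeries η G) := by
  induction e with
  | zero => simp
  | succ e ih =>
    rw [pow_succ _ (e + 1), delSeries_mul, ih, Nat.cast_succ (e + 1), pow_succ G e, map_mul]
    ring

omit [CompleteSpace K] in
theorem norm_del_coeff_pow {E : ℝ} (hE : 0 ≤ E) (hη : ∀ i, ‖η i‖ ≤ E)
    (G : MvPowerSeries (Fin 2) (E0 p n)) (k : ℕ) (N : Fin 2 →₀ ℕ) :
    ‖P.del η (MvPowerSeries.coeff N (G ^ p ^ k))‖ * (p : ℝ) ^ k ≤ E := by
  obtain ⟨e, he⟩ : ∃ e, p ^ k = e + 1 :=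
    ⟨p ^ k - 1, by have := pow_pos (Fact.out : p.Prime).pos k; omega⟩
  have h := congrArg (MvPowerSeries.coeff N) (P.delSeries_pow (η := η) G e)
  rw [← he, ← map_natCast (MvPowerSeries.C (σ := Fin 2) (R := K)), MvPowerSeries.coeff_C_mul] at h
  have hb : ‖MvPowerSeries.coeff N (MvPowerSeries.map P.chi (G ^ e) * P.delSeries η G)‖ ≤ E := by
    rw [MvPowerSeries.coeff_mul]
    refine IsUltrametricDist.norm_sum_le_of_forall_le_of_nonneg hE fun x _ => ?_
    rw [norm_mul, MvPowerSeries.coeff_map]
    exact (mul_le_of_le_one_left (norm_nonneg _) (P.norm_le _)).trans (P.norm_del_le hE hη _)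
  rw [show P.del η (MvPowerSeries.coeff N (G ^ p ^ k)) =
    MvPowerSeries.coeff N (P.delSeries η (G ^ p ^ k)) from rfl, h, Nat.cast_pow, norm_mul,
    norm_pow, P.norm_p, inv_pow, inv_mul_eq_div, div_mul_cancel₀]
  · exact hb
  · have := (Fact.out : p.Prime).pos
    positivity

omit [CompleteSpace K] [IsUltrametricDist K] in
theorem chi_vv_n : P.chi (vv p n n) = 1 := by rw [vv_self, map_one]

omit [CompleteSpace K] [IsUltrametricDist K] in
theorem norm_chi_of_residue_ne_zero {g : E0 p n}
    (hg : residue g ≠ 0) : ‖P.chi g‖ = 1 := by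
  refine le_antisymm (P.norm_le g) ?_
  by_contra hlt
  rw [not_le] at hlt
  have hu : IsUnit g := by
    by_contra hu
    exact hg (CPoint.mem_maximal_iff.1 ((IsLocalRing.mem_maximalIdeal g).2 hu))
  obtain ⟨u, rfl⟩ := hu
  have h1 : ‖P.chi (u : E0 p n)‖ * ‖P.chi ((u⁻¹ : (E0 p n)ˣ) : E0 p n)‖ = 1 := by
    rw [← norm_mul, ← map_mul, Units.mul_inv, map_one, norm_one]
  nlinarith [P.norm_le ((u⁻¹ : (E0 p n)ˣ) : E0 p n), norm_nonneg (P.chi (u : E0 p n))]

/-- The period vector and its derivatives are linearly independent. -/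
theorem Tmap_injective (hn : 1 ≤ n) {F : FormalGroup (E0 p n)}
    (hF : IsUniversalDeformation p n F) : Function.Injective (P.Tmap hn) := by
  rw [injective_iff_map_eq_zero]
  rintro ⟨lam, η⟩ hzero
  set z : ℕ → K := fun k => lam * P.M k + P.D η k with hz
  have hp2 := (Fact.out : p.Prime).two_le
  have hp0 : (0 : ℝ) < p := by exact_mod_cast (Fact.out : p.Prime).pos
  have hrec : Rec p P.x (P.wD η) z := by
    intro k
    have h1 := P.M_rec k
    rw [Pi.zero_apply, add_zero] at h1
    calc (p : K) * z (k + 1) = lam * ((p : K) * P.M (k + 1)) + (p : K) * P.D η (k + 1) := by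
          simp only [hz]; ring
      _ = _ := by
          rw [h1, P.D_rec k, mul_sum, ← add_assoc, ← sum_add_distrib]
          congr 1
          exact sum_congr rfl fun j _ => by simp only [hz]; ring
  have hlim : ∀ s, s < n → Tendsto (fun L => (p : K) ^ L * z (s + n * L)) atTop (𝓝 0) := by
    intro s hs
    have h := ((P.tendsto_M hn hs).const_mul lam).add (P.tendsto_D hn hs η)
    have h0 : lam * P.a s + P.A η s = 0 := congrFun hzero ⟨s, hs⟩
    rw [h0] at h
    refine h.congr fun L => ?_
    simp only [hz]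
    ring
  obtain ⟨B, hB⟩ := Rec.bounded hp2 P.norm_p P.r_pos.le P.r_lt (P.pars hn) hrec
    (P.norm_wD_le (E := ∑ i, ‖η i‖) (sum_nonneg fun i _ => norm_nonneg _)
      fun i => single_le_sum (f := fun i => ‖η i‖) (fun i _ => norm_nonneg _) (mem_univ i)) hlim
  have main : ∀ E : ℝ, 0 ≤ E → (∀ i, ‖η i‖ ≤ E) → ∀ k, ‖z k‖ ≤ E := by
    intro E hE hη
    have step : ∀ B' : ℝ, (∀ k, ‖z k‖ ≤ B') → ∀ k, ‖z k‖ ≤ max E (P.r * B') := by
      intro B' hB' k₀
      have hV : 0 ≤ max E (P.r * B') := le_max_of_le_left hE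
      induction k₀ using Nat.strong_induction_on with
      | _ k₀ ih =>
        set N := p ^ k₀ • testExp p n with hN
        have hN0 : N 0 ≠ 0 := by simp [hN, testExp_zero, (Fact.out : p.Prime).ne_zero]
        have hN1 : N 1 ≠ 0 := by
          have := pow_pred_lt (p := p) hn
          simp [hN, testExp_one, (Fact.out : p.Prime).ne_zero]
          omega
        obtain ⟨D, hD⟩ : ∃ D, D = N.degree + k₀ := ⟨_, rfl⟩
        have hid := law_identity hF N (D := D) (by omega)
        have h1 := congrArg P.chi hid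
        have h2 := congrArg (P.del η) hid
        rw [map_sum, map_zero] at h1
        rw [del_sum, del_zero] at h2
        have e : ∑ k ∈ range (D + 1),
            (z k * P.chi (powCoeff F k N) + P.M k * P.del η (powCoeff F k N)) = 0 := by
          refine mul_left_cancel₀ (pow_ne_zero D P.p_ne_zero) ?_
          rw [mul_zero, mul_sum, show (0 : K) = lam * 0 + 0 by ring]
          conv_rhs =>
            enter [1, 2]
            rw [← h1]
          conv_rhs =>
            arg 2
            rw [← h2]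
          rw [mul_sum, ← sum_add_distrib]
          refine sum_congr rfl fun k hk => ?_
          rw [mem_range] at hk
          have hsplit : (p : K) ^ D = (p : K) ^ (D - k) * (p : K) ^ k := by
            rw [← pow_add]; congr 1; omega
          have hpk := pow_ne_zero k P.p_ne_zero
          have hdp : P.del η ((p : E0 p n) ^ (D - k)) = 0 := by rw [del_pow, del_natCast, mul_zero]
          simp only [hz, map_mul, map_pow, map_natCast, del_mul, hdp, zero_mul,
            zero_add, M, Point.D, hsplit]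
          field_simp
          ring
        rw [← add_sum_erase _ _ (mem_range.2 (by omega : k₀ < D + 1)), add_eq_zero_iff_eq_neg] at e
        have hpc : ∀ k, P.del η (powCoeff F k N) =
            P.del η (MvPowerSeries.coeff N (F.toPowerSeries ^ p ^ k)) := fun k => by
          rw [powCoeff, coeff_X_pow_mixed hN0 hN1, sub_zero]
        have hdel : ∀ k, ‖P.M k * P.del η (powCoeff F k N)‖ ≤ E := fun k => by
          rw [norm_mul, hpc, mul_comm]
          exact le_trans (mul_le_mul_of_nonneg_left (P.norm_M_le k) (norm_nonneg _))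
            (P.norm_del_coeff_pow hE hη _ _ _)
        have hunit : ‖P.chi (powCoeff F k₀ N)‖ = 1 :=
          P.norm_chi_of_residue_ne_zero
            (residue_powCoeff_self hF hn k₀)
        have hmain : z k₀ * P.chi (powCoeff F k₀ N) =
            -(∑ k ∈ (range (D + 1)).erase k₀,
              (z k * P.chi (powCoeff F k N) + P.M k * P.del η (powCoeff F k N))) +
              -(P.M k₀ * P.del η (powCoeff F k₀ N)) := by
          linear_combination e
        rw [← mul_one ‖z k₀‖, ← hunit, ← norm_mul, hmain]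
        refine (IsUltrametricDist.norm_add_le_max _ _).trans (max_le ?_ ?_)
        · rw [norm_neg]
          refine IsUltrametricDist.norm_sum_le_of_forall_le_of_nonneg hV fun k hk => ?_
          obtain ⟨hne, -⟩ := mem_erase.1 hk
          refine (IsUltrametricDist.norm_add_le_max _ _).trans (max_le ?_ ?_)
          · rw [norm_mul]
            rcases lt_or_gt_of_ne hne with hlt | hgt
            · exact (mul_le_of_le_one_right (norm_nonneg _) (P.norm_le _)).trans (ih k hlt)
            · refine le_max_of_le_right ?_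
              rw [mul_comm]
              exact mul_le_mul (P.small _ (CPoint.mem_maximal_iff.2
                (residue_powCoeff_of_lt hF hn hgt))) (hB' k) (norm_nonneg _) P.r_pos.le
          · exact (hdel k).trans (le_max_left _ _)
        · rw [norm_neg]
          exact (hdel k₀).trans (le_max_left _ _)
    have hiter : ∀ m k, ‖z k‖ ≤ max E (P.r ^ m * B) := by
      intro m
      induction m with
      | zero => intro k; exact le_max_of_le_right (by simpa using hB k)
      | succ m ih =>
        intro k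
        refine (step _ ih k).trans (max_le (le_max_left _ _) ?_)
        rw [mul_max_of_nonneg _ _ P.r_pos.le]
        exact max_le (le_max_of_le_left (mul_le_of_le_one_left hE P.r_lt.le))
          (le_max_of_le_right (by rw [pow_succ']; exact le_of_eq (mul_assoc _ _ _).symm))
    intro k
    have ht : Tendsto (fun m => max E (P.r ^ m * B)) atTop (𝓝 E) := by
      simpa [max_eq_left hE] using tendsto_const_nhds (x := E).max
        ((tendsto_pow_atTop_nhds_zero_of_lt_one P.r_pos.le P.r_lt).mul_const B)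
    exact ge_of_tendsto' ht fun m => hiter m k
  have heta : ∀ E : ℝ, 0 ≤ E → (∀ i, ‖η i‖ ≤ E) → ∀ i, ‖η i‖ ≤ P.r * E := by
    intro E hE hη ⟨i, hi⟩
    induction i using Nat.strong_induction_on with
    | _ i ih =>
      set i' : Fin (n - 1) := ⟨i, hi⟩
      have h := hrec i
      rw [wD, ← sum_add_distrib, sum_range_succ'] at h
      have hd : P.del η (vv p n (i + 1)) = η i' := by
        rw [vv, dif_pos ⟨by omega, by omega⟩, del, sum_eq_single i']
        · simp [i']
        · intro b _ hb
          rw [MvPowerSeries.pderiv_X_of_ne (Ne.symm (by simpa [Fin.ext_iff] using hb)), map_zero, mul_zero]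
        · simp
      have hx : ∀ m, 1 ≤ m → m ≤ i + 1 → ‖P.x m‖ ≤ P.r := fun m h1 h2 =>
        P.small _ (vv_mem (by omega))
      simp only [Nat.sub_zero, pow_zero, pow_one, M_zero, one_mul, hd] at h
      have hbound : ‖η i'‖ ≤ P.r * E := by
        have e : η i' = (p : K) * z (i + 1) + (-(z 0 * P.x (i + 1)) + -∑ j ∈ range i,
            (z (j + 1) * P.x (i + 1 - (j + 1)) ^ p ^ (j + 1) +
              P.M (j + 1) * P.del η (vv p n (i + 1 - (j + 1)) ^ p ^ (j + 1)))) := by
          linear_combination -h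
        have hrE : 0 ≤ P.r * E := mul_nonneg P.r_pos.le hE
        rw [e]
        refine (IsUltrametricDist.norm_add_le_max _ _).trans (max_le ?_ ?_)
        · rw [norm_mul, P.norm_p]
          exact mul_le_mul P.r_ge (main E hE hη _) (norm_nonneg _) P.r_pos.le
        refine (IsUltrametricDist.norm_add_le_max _ _).trans (max_le ?_ ?_)
        · rw [norm_neg, norm_mul, mul_comm]
          exact mul_le_mul (hx _ (by omega) le_rfl) (main E hE hη 0) (norm_nonneg _) P.r_pos.le
        rw [norm_neg]
        refine IsUltrametricDist.norm_sum_le_of_forall_le_of_nonneg hrE fun j hj => ?_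
        rw [mem_range] at hj
        refine (IsUltrametricDist.norm_add_le_max _ _).trans (max_le ?_ ?_)
        · rw [norm_mul, norm_pow, mul_comm]
          exact mul_le_mul ((pow_le_of_le_one (norm_nonneg _) (P.norm_le _)
            (pow_ne_zero _ (Fact.out : p.Prime).ne_zero)).trans (hx _ (by omega) (by omega)))
            (main E hE hη _) (norm_nonneg _) P.r_pos.le
        · rw [del_pow, norm_mul, norm_mul, norm_mul, Nat.cast_pow, norm_pow, P.norm_p, norm_pow]
          have hM : ‖P.M (j + 1)‖ * ((p : ℝ)⁻¹) ^ (j + 1) ≤ 1 := by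
            rw [inv_pow, mul_inv_le_iff₀ (pow_pos hp0 _), one_mul]
            exact P.norm_M_le _
          have hdj : ‖P.del η (vv p n (i + 1 - (j + 1)))‖ ≤ P.r * E := by
            obtain ⟨m, hm⟩ : ∃ m, i + 1 - (j + 1) = m + 1 := ⟨i - (j + 1), by omega⟩
            have hmlt : m < n - 1 := by omega
            rw [hm, vv, dif_pos ⟨by omega, by omega⟩, del, sum_eq_single ⟨m, hmlt⟩]
            · simpa using ih m (by omega) hmlt
            · intro b _ hb
              rw [MvPowerSeries.pderiv_X_of_ne (Ne.symm (by simpa [Fin.ext_iff] using hb)), map_zero, mul_zero]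
            · simp
          calc ‖P.M (j + 1)‖ * (((p : ℝ)⁻¹) ^ (j + 1) *
                ‖P.chi (vv p n (i + 1 - (j + 1)))‖ ^ (p ^ (j + 1) - 1) *
                  ‖P.del η (vv p n (i + 1 - (j + 1)))‖)
              ≤ ‖P.M (j + 1)‖ * (((p : ℝ)⁻¹) ^ (j + 1) * 1 * (P.r * E)) := by
                gcongr
                exact pow_le_one₀ (norm_nonneg _) (P.norm_le _)
            _ = ‖P.M (j + 1)‖ * ((p : ℝ)⁻¹) ^ (j + 1) * (P.r * E) := by ring
            _ ≤ P.r * E := mul_le_of_le_one_left hrE hM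
      exact hbound
  set E₀ := ∑ i, ‖η i‖ with hE₀
  have hE0 : 0 ≤ E₀ := sum_nonneg fun i _ => norm_nonneg _
  have hall : ∀ m : ℕ, ∀ i, ‖η i‖ ≤ P.r ^ m * E₀ := by
    intro m
    induction m with
    | zero =>
      intro i
      rw [pow_zero, one_mul]
      exact single_le_sum (f := fun i => ‖η i‖) (fun i _ => norm_nonneg _) (mem_univ i)
    | succ m ih =>
      intro i
      rw [pow_succ', mul_assoc]
      exact heta _ (mul_nonneg (pow_nonneg P.r_pos.le _) hE0) ih i
  have hη0 : η = 0 := by
    funext i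
    have ht := (tendsto_pow_atTop_nhds_zero_of_lt_one P.r_pos.le P.r_lt).mul_const E₀
    rw [zero_mul] at ht
    exact norm_le_zero_iff.1 (ge_of_tendsto' ht fun m => hall m i)
  have hl := main 0 le_rfl (fun i => by simp [hη0]) 0
  have hl0 : lam = 0 := by simpa [hz, M_zero, D_zero] using hl
  simp [hη0, hl0]

/-! ## First-order expansion between two points -/

section Taylor

variable {P P'}

/-- The displacement between two points. -/
def disp (P P' : Point p n K) (i : Fin (n - 1)) : K :=
  P'.chi (MvPowerSeries.X i) - P.chi (MvPowerSeries.X i)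

/-- The remainder of the first-order expansion. -/
def rem (P P' : Point p n K) (g : E0 p n) : K :=
  P'.chi g - P.chi g - P.del (P.disp P') g

omit [CompleteSpace K] [IsUltrametricDist K] in
theorem rem_add (g h : E0 p n) : P.rem P' (g + h) = P.rem P' g + P.rem P' h := by
  simp only [rem, map_add, del_add]
  ring

omit [CompleteSpace K] [IsUltrametricDist K] in
theorem rem_sum {ι : Type*} (s : Finset ι) (g : ι → E0 p n) :
    P.rem P' (∑ j ∈ s, g j) = ∑ j ∈ s, P.rem P' (g j) := by
  simp only [rem, map_sum, del_sum, sum_sub_distrib]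

omit [CompleteSpace K] [IsUltrametricDist K] in
theorem rem_mul (g h : E0 p n) : P.rem P' (g * h) = P.rem P' g * P'.chi h +
    P.del (P.disp P') g * (P'.chi h - P.chi h) + P.chi g * P.rem P' h := by
  simp only [rem, map_mul, del_mul]
  ring

omit [CompleteSpace K] [IsUltrametricDist K] in
theorem rem_natCast (m : ℕ) : P.rem P' (m : E0 p n) = 0 := by
  simp [rem, del_natCast]

omit [CompleteSpace K] [IsUltrametricDist K] in
theorem diff_eq (g : E0 p n) :
    P'.chi g - P.chi g = P.rem P' g + P.del (P.disp P') g := by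
  simp [rem]

variable (hc : ∀ w, P'.chi (constants w) = P.chi (constants w)) (hr : P'.r = P.r)
  {E : ℝ} (hE : 0 ≤ E) (hE1 : E ≤ 1) (hη : ∀ i, ‖P.disp P' i‖ ≤ E)

include hc hr hE hE1 hη

omit [CompleteSpace K] in
theorem rem_le (g : E0 p n) : ‖P.rem P' g‖ ≤ E ^ 2 := by
  have hmul : ∀ a b, ‖P.rem P' a‖ ≤ E ^ 2 → ‖P.rem P' b‖ ≤ E ^ 2 →
      ‖P.rem P' (a * b)‖ ≤ E ^ 2 := by
    intro a b ha hb
    rw [rem_mul]
    refine (IsUltrametricDist.norm_add_le_max _ _).trans (max_le ?_ ?_)
    · refine (IsUltrametricDist.norm_add_le_max _ _).trans (max_le ?_ ?_)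
      · rw [norm_mul]
        exact (mul_le_of_le_one_right (norm_nonneg _) (P'.norm_le _)).trans ha
      · rw [norm_mul, sq]
        refine mul_le_mul (P.norm_del_le hE hη _) ?_ (norm_nonneg _) hE
        rw [diff_eq]
        exact (IsUltrametricDist.norm_add_le_max _ _).trans
          (max_le (hb.trans (by nlinarith)) (P.norm_del_le hE hη _))
    · rw [norm_mul]
      exact (mul_le_of_le_one_left (norm_nonneg _) (P.norm_le _)).trans hb
  have hX : ∀ i, P.rem P' (MvPowerSeries.X i) = 0 := by
    intro i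
    rw [rem, del, sum_eq_single i]
    · simp [disp]
    · intro b _ hb
      rw [MvPowerSeries.pderiv_X_of_ne (Ne.symm (by simpa [Fin.ext_iff] using hb)), map_zero, mul_zero]
    · simp
  have hpoly : ∀ q : MvPolynomial (Fin (n - 1)) (WittVector p (GaloisField p n)),
      ‖P.rem P' (q : E0 p n)‖ ≤ E ^ 2 := by
    intro q
    induction q using MvPolynomial.induction_on with
    | C w =>
      have h1 : P'.chi (MvPowerSeries.C w) = P.chi (MvPowerSeries.C w) := hc w
      simp [rem, del, h1, sq_nonneg]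
    | add a b ha hb =>
      rw [MvPolynomial.coe_add, rem_add]
      exact (IsUltrametricDist.norm_add_le_max _ _).trans (max_le ha hb)
    | mul_X a i ha =>
      rw [MvPolynomial.coe_mul, MvPolynomial.coe_X]
      exact hmul _ _ ha (by rw [hX, norm_zero]; positivity)
  have hN : ∀ N, ‖P.rem P' g‖ ≤ max (E ^ 2) (P.r ^ N) := by
    intro N
    set q : E0 p n := ↑(MvPowerSeries.truncTotal (N + 1) g) with hq
    have hmem : g - q ∈ IsLocalRing.maximalIdeal (E0 p n) ^ (N + 1) :=
      mem_pow_of_coeff_eq_zero _ fun a ha => by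
        rw [map_sub, MvPolynomial.coeff_coe, MvPowerSeries.coeff_truncTotal _ ha, sub_self]
    rw [show g = q + (g - q) by ring, rem_add]
    refine (IsUltrametricDist.norm_add_le_max _ _).trans
      (max_le (le_max_of_le_left (hpoly _)) (le_max_of_le_right ?_))
    have hle : P.r ^ (N + 1) ≤ P.r ^ N :=
      pow_le_pow_of_le_one P.r_pos.le P.r_lt.le (Nat.le_succ N)
    rw [rem, sub_sub, sub_eq_add_neg]
    refine (IsUltrametricDist.norm_add_le_max _ _).trans (max_le ?_ ?_)
    · exact (P'.norm_chi_pow_mem hmem).trans (by rw [hr]; exact hle)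
    rw [norm_neg]
    refine (IsUltrametricDist.norm_add_le_max _ _).trans
      (max_le ((P.norm_chi_pow_mem hmem).trans hle) ?_)
    refine IsUltrametricDist.norm_sum_le_of_forall_le_of_nonneg (pow_nonneg P.r_pos.le _)
      fun i _ => ?_
    rw [norm_mul]
    exact (mul_le_of_le_one_left (norm_nonneg _) ((hη i).trans hE1)).trans
      (P.norm_chi_pow_mem (pderiv_mem_pow i hmem))
  have ht : Tendsto (fun N => max (E ^ 2) (P.r ^ N)) atTop (𝓝 (E ^ 2)) := by
    have h := (tendsto_const_nhds (x := E ^ 2)).max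
      (tendsto_pow_atTop_nhds_zero_of_lt_one P.r_pos.le P.r_lt)
    rwa [max_eq_left (sq_nonneg E)] at h
  exact ge_of_tendsto' ht hN

omit [CompleteSpace K] in
theorem diff_le (g : E0 p n) : ‖P'.chi g - P.chi g‖ ≤ E := by
  rw [diff_eq]
  exact (IsUltrametricDist.norm_add_le_max _ _).trans
    (max_le ((rem_le hc hr hE hE1 hη g).trans (by nlinarith)) (P.norm_del_le hE hη g))

omit [CompleteSpace K] in
theorem power_bounds {v : E0 p n} (hv : v ∈ IsLocalRing.maximalIdeal (E0 p n)) (e : ℕ) :
    ‖P'.chi (v ^ e) - P.chi (v ^ e)‖ * P.r ≤ E * P.r ^ e ∧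
      ‖P.del (P.disp P') (v ^ e)‖ * P.r ≤ E * P.r ^ e ∧
      ‖P.rem P' (v ^ e)‖ * P.r ^ 2 ≤ E ^ 2 * P.r ^ e := by
  have hr0 := P.r_pos.le
  have hv' : ‖P'.chi v‖ ≤ P.r := hr ▸ P'.small v hv
  have hdel : ∀ e : ℕ, ‖P.del (P.disp P') (v ^ e)‖ * P.r ≤ E * P.r ^ e := by
    intro e
    cases e with
    | zero =>
      have := P.del_natCast (η := P.disp P') 1
      rw [Nat.cast_one] at this
      simp [this, hE]
    | succ e =>
      rw [del_pow, norm_mul, norm_mul, norm_pow, Nat.add_sub_cancel, pow_succ P.r e]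
      calc ‖((e + 1 : ℕ) : K)‖ * ‖P.chi v‖ ^ e * ‖P.del (P.disp P') v‖ * P.r
          ≤ 1 * P.r ^ e * E * P.r := by
            gcongr
            · exact IsUltrametricDist.norm_natCast_le_one K _
            · exact P.small v hv
            · exact P.norm_del_le hE hη v
        _ = E * (P.r ^ e * P.r) := by ring
  induction e with
  | zero =>
    have := P.rem_natCast (P' := P') 1
    rw [Nat.cast_one] at this
    refine ⟨?_, hdel 0, ?_⟩
    · simp [hE]
    · simp [this, sq_nonneg]
  | succ e ih =>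
    obtain ⟨ih1, ih2, ih3⟩ := ih
    refine ⟨?_, hdel _, ?_⟩
    · rw [pow_succ, map_mul, map_mul, show P'.chi (v ^ e) * P'.chi v - P.chi (v ^ e) * P.chi v =
        (P'.chi (v ^ e) - P.chi (v ^ e)) * P'.chi v + P.chi (v ^ e) * (P'.chi v - P.chi v) by ring,
        ← abs_of_nonneg hr0, ← Real.norm_eq_abs, ← le_div_iff₀ (by simpa using P.r_pos.ne')]
      refine (IsUltrametricDist.norm_add_le_max _ _).trans (max_le ?_ ?_) <;>
        rw [le_div_iff₀ (by simpa using P.r_pos.ne'), Real.norm_eq_abs, abs_of_nonneg hr0,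
          norm_mul, pow_succ P.r e, ← mul_assoc]
      · calc ‖P'.chi (v ^ e) - P.chi (v ^ e)‖ * ‖P'.chi v‖ * P.r
            = ‖P'.chi (v ^ e) - P.chi (v ^ e)‖ * P.r * ‖P'.chi v‖ := by ring
          _ ≤ E * P.r ^ e * P.r := by gcongr
      · rw [map_pow, norm_pow]
        calc ‖P.chi v‖ ^ e * ‖P'.chi v - P.chi v‖ * P.r ≤ P.r ^ e * E * P.r := by
              gcongr
              · exact P.small v hv
              · exact diff_le hc hr hE hE1 hη v
          _ = E * P.r ^ e * P.r := by ring
    · rw [pow_succ v e, rem_mul, pow_succ P.r e, ← mul_assoc]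
      rw [← le_div_iff₀ (pow_pos P.r_pos 2)]
      refine (IsUltrametricDist.norm_add_le_max _ _).trans (max_le ?_ ?_)
      · refine (IsUltrametricDist.norm_add_le_max _ _).trans (max_le ?_ ?_) <;>
          rw [le_div_iff₀ (pow_pos P.r_pos 2), norm_mul]
        · calc ‖P.rem P' (v ^ e)‖ * ‖P'.chi v‖ * P.r ^ 2
              = ‖P.rem P' (v ^ e)‖ * P.r ^ 2 * ‖P'.chi v‖ := by ring
            _ ≤ E ^ 2 * P.r ^ e * P.r := by gcongr
        · calc ‖P.del (P.disp P') (v ^ e)‖ * ‖P'.chi v - P.chi v‖ * P.r ^ 2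
              = ‖P.del (P.disp P') (v ^ e)‖ * P.r * ‖P'.chi v - P.chi v‖ * P.r := by ring
            _ ≤ E * P.r ^ e * E * P.r := by
              gcongr
              exact diff_le hc hr hE hE1 hη v
            _ = E ^ 2 * P.r ^ e * P.r := by ring
      · rw [le_div_iff₀ (pow_pos P.r_pos 2), norm_mul, map_pow, norm_pow]
        calc ‖P.chi v‖ ^ e * ‖P.rem P' v‖ * P.r ^ 2 ≤ P.r ^ e * E ^ 2 * (P.r ^ 1) := by
              refine mul_le_mul (mul_le_mul (pow_le_pow_left₀ (norm_nonneg _) (P.small v hv) e)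
                (rem_le hc hr hE hE1 hη v) (norm_nonneg _) (pow_nonneg hr0 e))
                (pow_le_pow_of_le_one hr0 P.r_lt.le (by norm_num)) (sq_nonneg _) ?_
              positivity
          _ = E ^ 2 * P.r ^ e * P.r := by ring

end Taylor

theorem exists_taylor (hn : 1 ≤ n) :
    ∃ C : ℝ, 0 ≤ C ∧ ∀ P' : Point p n K, (∀ w, P'.chi (constants w) = P.chi (constants w)) →
      P'.r = P.r → ∀ E : ℝ, 0 ≤ E → E ≤ 1 → (∀ i, ‖P.disp P' i‖ ≤ E) →
        ∀ s, s < n → ‖P'.a s - P.a s - P.A (P.disp P') s‖ ≤ C * E ^ 2 := by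
  have hp2 := (Fact.out : p.Prime).two_le
  have hp0 : (0 : ℝ) < p := by exact_mod_cast (Fact.out : p.Prime).pos
  obtain ⟨B, hB, hper⟩ := exists_per_bound (K := K) n hp2 P.norm_p P.r_pos.le P.r_lt
  obtain ⟨T, hT⟩ := exists_mul_pow_le P.r_pos.le P.r_lt
  have hT0 : 0 ≤ T := le_trans (by simp) (hT 0)
  refine ⟨B * (T / P.r ^ 2), mul_nonneg hB (div_nonneg hT0 (sq_nonneg _)),
    fun P' hc hr E hE hE1 hη s hs => ?_⟩
  set η := P.disp P' with hηdef
  set R : ℕ → K := fun k => P'.M k - P.M k - P.D η k with hR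
  have hRrem : ∀ k, R k = P.rem P' (mu p n k) / (p : K) ^ k := fun k => by
    simp only [hR, M, Point.D, rem, ← hηdef, sub_div]
  set W := T / P.r ^ 2 * E ^ 2 with hW
  have hW0 : 0 ≤ W := mul_nonneg (div_nonneg hT0 (sq_nonneg _)) (sq_nonneg _)
  set w : ℕ → K := fun k => ∑ j ∈ range (k + 1),
    (P.D η j * (P'.chi (vv p n (k + 1 - j) ^ p ^ j) - P.chi (vv p n (k + 1 - j) ^ p ^ j)) +
      P.M j * P.rem P' (vv p n (k + 1 - j) ^ p ^ j)) with hw
  have hrec : Rec p P'.x w R := by
    intro k
    rw [hRrem, mu_succ, rem_sum, sum_div, mul_sum, hw, ← sum_add_distrib]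
    refine sum_congr rfl fun j hj => ?_
    rw [mem_range] at hj
    rw [mul_assoc, show (p : E0 p n) ^ (k - j) = ((p ^ (k - j) : ℕ) : E0 p n) by push_cast; rfl,
      rem_mul, rem_natCast, del_natCast, zero_mul, zero_mul, zero_add, zero_add, map_natCast,
      Nat.cast_pow, P.scaled _ (by omega), rem_mul, hRrem, M, Point.D, x, ← hηdef, map_pow]
    ring
  have hwb : ∀ k, ‖w k‖ ≤ W := by
    intro k
    refine IsUltrametricDist.norm_sum_le_of_forall_le_of_nonneg hW0 fun j hj => ?_
    rw [mem_range] at hj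
    rcases lt_or_ge (k + 1 - j) n with hlt | hge
    · obtain ⟨h1, -, h3⟩ := power_bounds hc hr hE hE1 hη (vv_mem hlt) (p ^ j)
      have hD : ‖P.D η j‖ ≤ E * (p : ℝ) ^ j := by
        rw [Point.D, P.norm_div_pow]
        gcongr
        exact P.norm_del_le hE hη _
      have hq := hT (p ^ j)
      rw [Nat.cast_pow] at hq
      have hr2 := pow_pos P.r_pos 2
      refine (IsUltrametricDist.norm_add_le_max _ _).trans (max_le ?_ ?_)
      · rw [norm_mul, hW, div_mul_eq_mul_div, le_div_iff₀ hr2]
        calc ‖P.D η j‖ * ‖P'.chi (vv p n (k + 1 - j) ^ p ^ j) -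
              P.chi (vv p n (k + 1 - j) ^ p ^ j)‖ * P.r ^ 2
            = ‖P.D η j‖ * (‖P'.chi (vv p n (k + 1 - j) ^ p ^ j) -
              P.chi (vv p n (k + 1 - j) ^ p ^ j)‖ * P.r) * P.r := by ring
          _ ≤ E * (p : ℝ) ^ j * (E * P.r ^ p ^ j) * 1 :=
              mul_le_mul (mul_le_mul hD h1 (mul_nonneg (norm_nonneg _) P.r_pos.le) (by positivity))
                P.r_lt.le P.r_pos.le (by have := P.r_pos; positivity)
          _ = (p : ℝ) ^ j * P.r ^ p ^ j * E ^ 2 := by ring
          _ ≤ T * E ^ 2 := by gcongr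
      · rw [norm_mul, hW, div_mul_eq_mul_div, le_div_iff₀ hr2, mul_assoc]
        calc ‖P.M j‖ * (‖P.rem P' (vv p n (k + 1 - j) ^ p ^ j)‖ * P.r ^ 2)
            ≤ (p : ℝ) ^ j * (E ^ 2 * P.r ^ p ^ j) := by
              gcongr
              exact P.norm_M_le j
          _ = (p : ℝ) ^ j * P.r ^ p ^ j * E ^ 2 := by ring
          _ ≤ T * E ^ 2 := by gcongr
    · have hv : ∃ m : ℕ, vv p n (k + 1 - j) = (m : E0 p n) := by
        rcases eq_or_lt_of_le hge with h | h
        · exact ⟨1, by rw [← h, vv_self, Nat.cast_one]⟩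
        · exact ⟨0, by rw [vv_eq_zero p n h, Nat.cast_zero]⟩
      obtain ⟨m, hm⟩ := hv
      rw [hm, ← Nat.cast_pow, map_natCast, map_natCast, sub_self, rem_natCast]
      simpa using hW0
  have hR0 : ‖R 0‖ ≤ W := by
    have h := P.rem_natCast (P' := P') 1
    rw [Nat.cast_one] at h
    rw [hRrem, mu_zero, h]
    simpa using hW0
  obtain ⟨hlim, hle⟩ := hper P'.x w R W (hr ▸ P'.pars hn) hrec hwb hR0 s hs
  have hlim' : Tendsto (fun L => (p : K) ^ L * R (s + n * L)) atTop
      (𝓝 (P'.a s - P.a s - P.A η s)) := by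
    simpa [hR, mul_sub] using
      (((P'.tendsto_M hn hs).sub (P.tendsto_M hn hs)).sub (P.tendsto_D hn hs η))
  rw [tendsto_nhds_unique hlim' hlim]
  exact hle.trans (le_of_eq (by rw [hW]; ring))

end Point

end Vale.Agent.P217.Strat0
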