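import Mathlib

/-!
# P217, block J: the recursion of the logarithm coefficients over a complete ultrametric field

For parameters `x` with `x n = 1`, `x i = 0` above `n` and `‖x i‖ ≤ r < 1` below, a solution of
`p z (k+1) = sum z j * x (k+1-j) ^ (p ^ j) + w k` with bounded `w` has periods
`lim p ^ L * z (s + n L)`, and is bounded when all periods vanish.
-/

noncomputable section

namespace Vale.Agent.P217.Strat0

open Finset Filter
open scoped Topology

variable {K : Type*} [NontriviallyNormedField K] [IsUltrametricDist K]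

/-- Parameters at a point of the open disc. -/
structure Pars (n : ℕ) (r : ℝ) (x : ℕ → K) : Prop where
  n_pos : 1 ≤ n
  top : x n = 1
  high : ∀ i, n < i → x i = 0
  low : ∀ i, 1 ≤ i → i < n → ‖x i‖ ≤ r

/-- The recursion. -/
def Rec (p : ℕ) (x w z : ℕ → K) : Prop :=
  ∀ k, (p : K) * z (k + 1) = ∑ j ∈ range (k + 1), z j * x (k + 1 - j) ^ (p ^ j) + w k

/-- The periods of a solution. -/
def per (p n : ℕ) (z : ℕ → K) (s : ℕ) : K :=
  limUnder atTop fun L => (p : K) ^ L * z (s + n * L)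

variable {p n : ℕ} {r : ℝ}

theorem exists_tail (hp : 2 ≤ p) (hr : 0 ≤ r) (hr1 : r < 1) {c : ℝ} :
    ∃ j₀, ∀ j, j₀ ≤ j → c * r ^ (p ^ j) ≤ 1 := by
  have h := ((tendsto_pow_atTop_nhds_zero_of_lt_one hr hr1).comp
    (tendsto_pow_atTop_atTop_of_one_lt (r := p) (by omega))).const_mul c
  rw [mul_zero] at h
  exact eventually_atTop.1 (h.eventually_le_const one_pos)

theorem exists_mul_pow_le (hr : 0 ≤ r) (hr1 : r < 1) : ∃ T : ℝ, ∀ q : ℕ, q * r ^ q ≤ T := by
  obtain ⟨T, hT⟩ := (tendsto_self_mul_const_pow_of_lt_one hr hr1).bddAbove_range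
  exact ⟨T, fun q => hT ⟨q, rfl⟩⟩

omit [IsUltrametricDist K] in
theorem Pars.le_one {x : ℕ → K} (hx : Pars n r x) (hr1 : r ≤ 1) (i : ℕ) (hi : 1 ≤ i) :
    ‖x i‖ ≤ 1 := by
  rcases lt_trichotomy i n with h | h | h
  · exact (hx.low i hi h).trans hr1
  · simp [h, hx.top]
  · simp [hx.high i h]

variable {x w z : ℕ → K} {W : ℝ}

theorem Rec.step (hp : 2 ≤ p) (hx : Pars n r x) (h : Rec p x w z) {m : ℕ} {V : ℝ} (hV : 0 ≤ V)
    (hw : ‖w (m + n - 1)‖ ≤ V)
    (hz : ∀ i, m < i → i < m + n → r ^ (p ^ i) * ‖z i‖ ≤ V) :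
    ‖(p : K) * z (m + n) - z m‖ ≤ V := by
  have hn := hx.n_pos
  have hk : m + n - 1 + 1 = m + n := by omega
  have h1 := h (m + n - 1)
  rw [hk, ← add_sum_erase _ _ (mem_range.2 (by omega : m < m + n))] at h1
  have e : z m * x (m + n - m) ^ p ^ m = z m := by
    rw [Nat.add_sub_cancel_left, hx.top, one_pow, mul_one]
  rw [h1, e, add_assoc, add_sub_cancel_left]
  refine (IsUltrametricDist.norm_add_le_max _ _).trans (max_le ?_ hw)
  refine IsUltrametricDist.norm_sum_le_of_forall_le_of_nonneg hV fun i hi => ?_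
  simp only [mem_erase, mem_range] at hi
  rcases Nat.lt_or_ge m i with hmi | hmi
  · rw [norm_mul, norm_pow]
    have hxi : ‖x (m + n - i)‖ ≤ r := hx.low _ (by omega) (by omega)
    calc ‖z i‖ * ‖x (m + n - i)‖ ^ p ^ i ≤ ‖z i‖ * r ^ p ^ i := by gcongr
      _ ≤ V := by rw [mul_comm]; exact hz i hmi hi.2
  · rw [hx.high _ (by omega), zero_pow (pow_ne_zero _ (by omega)), mul_zero, norm_zero]
    exact hV

theorem exists_bound (n : ℕ) (hp : 2 ≤ p) (hnp : ‖(p : K)‖ = (p : ℝ)⁻¹) (hr : 0 ≤ r)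
    (hr1 : r < 1) :
    ∃ B : ℝ, 0 ≤ B ∧ ∀ (x w z : ℕ → K) (W : ℝ), Pars n r x → Rec p x w z →
      (∀ k, ‖w k‖ ≤ W) → ‖z 0‖ ≤ W → ∀ k, ‖z k‖ ≤ B * W * (p : ℝ) ^ (k / n) := by
  obtain ⟨j₀, hj₀⟩ := exists_tail hp hr hr1 (c := (p : ℝ))
  have hp1 : (1 : ℝ) ≤ p := by exact_mod_cast (by omega : 1 ≤ p)
  have hp0 : (0 : ℝ) < p := by linarith
  obtain ⟨A, hA⟩ : ∃ A, A = j₀ + n + 1 := ⟨_, rfl⟩
  refine ⟨(p : ℝ) ^ A, by positivity, fun x w z W hx h hw h0 => ?_⟩
  have hW : 0 ≤ W := (norm_nonneg _).trans h0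
  have hn := hx.n_pos
  suffices ∀ k, ‖z k‖ ≤ (p : ℝ) ^ min k A * W * (p : ℝ) ^ (k / n) by
    intro k
    refine (this k).trans ?_
    gcongr ?_ * W * _
    exact pow_le_pow_right₀ hp1 (min_le_right _ _)
  intro k
  induction k using Nat.strong_induction_on with
  | _ k ih =>
    cases k with
    | zero => simpa using h0
    | succ k =>
      set R := (p : ℝ) ^ min (k + 1) A * W * (p : ℝ) ^ ((k + 1) / n) with hR
      have hR0 : 0 ≤ R := by positivity
      have key : ‖(p : K) * z (k + 1)‖ ≤ (p : ℝ)⁻¹ * R := by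
        rw [h k]
        refine (IsUltrametricDist.norm_add_le_max _ _).trans (max_le ?_ ?_)
        · refine IsUltrametricDist.norm_sum_le_of_forall_le_of_nonneg (by positivity)
            fun j hj => ?_
          rw [mem_range] at hj
          have hj' := ih j hj
          rw [norm_mul, norm_pow, le_inv_mul_iff₀ hp0]
          rcases lt_trichotomy (k + 1 - j) n with hlt | heq | hgt
          · have hxj := hx.low _ (by omega) hlt
            have hdiv : (p : ℝ) ^ (j / n) ≤ (p : ℝ) ^ ((k + 1) / n) :=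
              pow_le_pow_right₀ hp1 (Nat.div_le_div_right (by omega))
            calc (p : ℝ) * (‖z j‖ * ‖x (k + 1 - j)‖ ^ p ^ j)
                ≤ (p : ℝ) * ((p : ℝ) ^ min j A * W * (p : ℝ) ^ ((k + 1) / n) * r ^ p ^ j) := by
                  gcongr
                  exact hj'.trans (by gcongr)
              _ = ((p : ℝ) * r ^ p ^ j * (p : ℝ) ^ min j A) * W * (p : ℝ) ^ ((k + 1) / n) := by
                  ring
              _ ≤ R := by
                  rw [hR]
                  gcongr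
                  by_cases hk : k + 1 ≤ A
                  · calc (p : ℝ) * r ^ p ^ j * (p : ℝ) ^ min j A
                        ≤ (p : ℝ) * 1 * (p : ℝ) ^ min j A := by
                          gcongr
                          exact pow_le_one₀ hr hr1.le
                      _ ≤ (p : ℝ) ^ min (k + 1) A := by
                          rw [mul_one, ← pow_succ']
                          exact pow_le_pow_right₀ hp1 (by omega)
                  · calc (p : ℝ) * r ^ p ^ j * (p : ℝ) ^ min j A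
                        ≤ 1 * (p : ℝ) ^ min j A := by
                          gcongr
                          exact hj₀ j (by omega)
                      _ ≤ (p : ℝ) ^ min (k + 1) A := by
                          rw [one_mul]
                          exact pow_le_pow_right₀ hp1 (by omega)
          · rw [heq, hx.top, norm_one, one_pow, mul_one]
            have hdiv : (k + 1) / n = j / n + 1 := by
              rw [show k + 1 = j + n by omega, Nat.add_div_right _ hn]
            calc (p : ℝ) * ‖z j‖ ≤ (p : ℝ) * ((p : ℝ) ^ min j A * W * (p : ℝ) ^ (j / n)) := by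
                  gcongr
              _ = (p : ℝ) ^ min j A * W * (p : ℝ) ^ ((k + 1) / n) := by rw [hdiv, pow_succ]; ring
              _ ≤ R := by
                  rw [hR]
                  gcongr ?_ * W * _
                  exact pow_le_pow_right₀ hp1 (by omega)
          · simp [hx.high _ hgt, zero_pow (pow_ne_zero j (show p ≠ 0 by omega)), hR0]
        · rw [le_inv_mul_iff₀ hp0]
          calc (p : ℝ) * ‖w k‖ ≤ (p : ℝ) ^ 1 * W * 1 := by rw [pow_one, mul_one]; gcongr; exact hw k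
            _ ≤ R := by
                rw [hR]
                exact mul_le_mul (mul_le_mul_of_nonneg_right (pow_le_pow_right₀ hp1 (by omega)) hW)
                  (one_le_pow₀ hp1) zero_le_one (by positivity)
      rw [norm_mul, hnp] at key
      exact le_of_mul_le_mul_left key (inv_pos.2 hp0)

omit [IsUltrametricDist K] in
theorem norm_pow_mul (hnp : ‖(p : K)‖ = (p : ℝ)⁻¹) (L : ℕ) (a : K) :
    ‖(p : K) ^ L * a‖ = ‖a‖ / (p : ℝ) ^ L := by
  rw [norm_mul, norm_pow, hnp, inv_pow, inv_mul_eq_div]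

theorem exists_bound_diff (n : ℕ) (hp : 2 ≤ p) (hnp : ‖(p : K)‖ = (p : ℝ)⁻¹) (hr : 0 ≤ r)
    (hr1 : r < 1) :
    ∃ B : ℝ, 0 ≤ B ∧ ∀ (x w z : ℕ → K) (W : ℝ), Pars n r x → Rec p x w z →
      (∀ k, ‖w k‖ ≤ W) → ‖z 0‖ ≤ W →
      ∀ s, s < n → ∀ L, ‖(p : K) ^ L * z (s + n * L)‖ ≤ B * W ∧
        dist ((p : K) ^ L * z (s + n * L)) ((p : K) ^ (L + 1) * z (s + n * (L + 1))) ≤
          B * W * ((p : ℝ)⁻¹) ^ L := by
  obtain ⟨B, hB, hb⟩ := exists_bound n hp hnp hr hr1
  obtain ⟨T, hT⟩ := exists_mul_pow_le hr hr1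
  have hp1 : (1 : ℝ) ≤ p := by exact_mod_cast (by omega : 1 ≤ p)
  have hT0 : 0 ≤ T := le_trans (by simp) (hT 0)
  refine ⟨max B (max 1 (B * T)), le_max_of_le_left hB, fun x w z W hx h hw h0 s hs L => ?_⟩
  have hn := hx.n_pos
  have hW : 0 ≤ W := (norm_nonneg _).trans h0
  have hbz := hb x w z W hx h hw h0
  constructor
  · rw [norm_pow_mul hnp, div_le_iff₀ (by positivity)]
    have e : (s + n * L) / n = L := by
      rw [Nat.add_mul_div_left _ _ hn, Nat.div_eq_of_lt hs, zero_add]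
    calc ‖z (s + n * L)‖ ≤ B * W * (p : ℝ) ^ L := by simpa [e] using hbz (s + n * L)
      _ ≤ _ := by gcongr; exact le_max_left _ _
  · rw [dist_comm, dist_eq_norm, show s + n * (L + 1) = s + n * L + n by ring, pow_succ,
      mul_assoc, ← mul_sub, norm_pow_mul hnp, inv_pow, ← div_eq_mul_inv]
    gcongr
    have hV : W ≤ max B (max 1 (B * T)) * W :=
      le_mul_of_one_le_left hW (le_max_of_le_right (le_max_left _ _))
    refine h.step hp hx (by positivity) ((hw _).trans hV) fun i _ _ => ?_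
    calc r ^ p ^ i * ‖z i‖ ≤ r ^ p ^ i * (B * W * (p : ℝ) ^ (i / n)) := by gcongr; exact hbz i
      _ ≤ r ^ p ^ i * (B * W * (p : ℝ) ^ i) :=
          mul_le_mul_of_nonneg_left (mul_le_mul_of_nonneg_left
            (pow_le_pow_right₀ hp1 (Nat.div_le_self i n)) (by positivity)) (pow_nonneg hr _)
      _ = B * W * (((p ^ i : ℕ) : ℝ) * r ^ p ^ i) := by push_cast; ring
      _ ≤ B * W * T := by gcongr; exact hT _
      _ = B * T * W := by ring
      _ ≤ _ := by gcongr; exact le_max_of_le_right (le_max_right _ _)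

variable [CompleteSpace K]

theorem exists_per_bound (n : ℕ) (hp : 2 ≤ p) (hnp : ‖(p : K)‖ = (p : ℝ)⁻¹) (hr : 0 ≤ r)
    (hr1 : r < 1) :
    ∃ B : ℝ, 0 ≤ B ∧ ∀ (x w z : ℕ → K) (W : ℝ), Pars n r x → Rec p x w z →
      (∀ k, ‖w k‖ ≤ W) → ‖z 0‖ ≤ W → ∀ s, s < n →
        Tendsto (fun L => (p : K) ^ L * z (s + n * L)) atTop (𝓝 (per p n z s)) ∧
          ‖per p n z s‖ ≤ B * W := by
  obtain ⟨B, hB, hb⟩ := exists_bound_diff n hp hnp hr hr1
  refine ⟨B, hB, fun x w z W hx h hw h0 s hs => ?_⟩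
  have hc : CauchySeq fun L => (p : K) ^ L * z (s + n * L) :=
    cauchySeq_of_le_geometric _ _ (inv_lt_one_of_one_lt₀ (by exact_mod_cast (by omega : 1 < p)))
      fun L => (hb x w z W hx h hw h0 s hs L).2
  have ht : Tendsto (fun L => (p : K) ^ L * z (s + n * L)) atTop (𝓝 (per p n z s)) :=
    hc.tendsto_limUnder
  exact ⟨ht, le_of_tendsto' ht.norm fun L => (hb x w z W hx h hw h0 s hs L).1⟩

omit [CompleteSpace K] in
/-- A solution all of whose periods vanish is bounded. -/
theorem Rec.bounded (hp : 2 ≤ p) (hnp : ‖(p : K)‖ = (p : ℝ)⁻¹) (hr : 0 ≤ r) (hr1 : r < 1)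
    (hx : Pars n r x) (h : Rec p x w z) (hw : ∀ k, ‖w k‖ ≤ W)
    (h0 : ∀ s, s < n → Tendsto (fun L => (p : K) ^ L * z (s + n * L)) atTop (𝓝 0)) :
    ∃ B, ∀ k, ‖z k‖ ≤ B := by
  have hn := hx.n_pos
  have hp0 : (0 : ℝ) < p := by exact_mod_cast (by omega : 0 < p)
  have hp1 : (1 : ℝ) ≤ p := by exact_mod_cast (by omega : 1 ≤ p)
  obtain ⟨j₀, hj₀⟩ := exists_tail hp hr hr1 (c := (p : ℝ))
  have hW : 0 ≤ W := (norm_nonneg _).trans (hw 0)
  set b : ℕ → ℝ := fun k => ‖z k‖ / (p : ℝ) ^ (k / n) with hbdef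
  have hsmall : ∀ ε, 0 < ε → ∃ K₀, ∀ k, K₀ ≤ k → b k < ε := by
    intro ε hε
    have h1 : ∀ᶠ L in atTop, ∀ s ∈ range n, ‖(p : K) ^ L * z (s + n * L)‖ < ε := by
      rw [Filter.eventually_all_finset]
      intro s hs
      have := (h0 s (mem_range.1 hs)).norm
      rw [norm_zero] at this
      exact this.eventually_lt_const hε
    obtain ⟨L₀, hL₀⟩ := eventually_atTop.1 h1
    refine ⟨n * L₀, fun k hk => ?_⟩
    have h2 := hL₀ (k / n) ((Nat.le_div_iff_mul_le hn).2 (by rwa [mul_comm]))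
      (k % n) (mem_range.2 (Nat.mod_lt _ hn))
    rwa [Nat.mod_add_div, norm_pow_mul hnp] at h2
  have hnext : ∀ j, j₀ ≤ j → W < ‖z j‖ → ∃ i, j < i ∧ W < ‖z i‖ ∧ b j ≤ b i := by
    intro j hj hbig
    by_contra hno
    simp only [not_exists, not_and, not_le] at hno
    have hpz : ‖(p : K) * z (j + n)‖ < ‖z j‖ := by
      rw [norm_mul, hnp, inv_mul_lt_iff₀ hp0]
      rcases le_or_gt ‖z (j + n)‖ W with hle | hgt
      · exact (hle.trans_lt hbig).trans_le (le_mul_of_one_le_left (norm_nonneg _) hp1)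
      · have hb2 := hno (j + n) (by omega) hgt
        simp only [hbdef, Nat.add_div_right _ hn, pow_succ] at hb2
        rw [div_lt_div_iff₀ (by positivity) (by positivity)] at hb2
        nlinarith [pow_pos hp0 (j / n)]
    have hlow : ∀ i, j < i → i < j + n → r ^ p ^ i * ‖z i‖ < ‖z j‖ := by
      intro i hi1 hi2
      rcases le_or_gt ‖z i‖ W with hle | hgt
      · exact ((mul_le_of_le_one_left (norm_nonneg _) (pow_le_one₀ hr hr1.le)).trans hle).trans_lt
          hbig
      · have hb2 := hno i hi1 hgt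
        simp only [hbdef] at hb2
        rw [div_lt_div_iff₀ (by positivity) (by positivity)] at hb2
        have hd : (p : ℝ) ^ (i / n) ≤ (p : ℝ) ^ (j / n) * p := by
          rw [← pow_succ]
          refine pow_le_pow_right₀ hp1 ?_
          rw [← Nat.add_div_right _ hn]
          exact Nat.div_le_div_right hi2.le
        have hlt : ‖z i‖ < p * ‖z j‖ := by
          by_contra hge
          rw [not_lt] at hge
          nlinarith [pow_pos hp0 (i / n), pow_pos hp0 (j / n), norm_nonneg (z j)]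
        rcases eq_or_lt_of_le (pow_nonneg hr (p ^ i)) with h00 | h00
        · rw [← h00, zero_mul]
          exact hW.trans_lt hbig
        · calc r ^ p ^ i * ‖z i‖ < r ^ p ^ i * (p * ‖z j‖) := by gcongr
            _ = ((p : ℝ) * r ^ p ^ i) * ‖z j‖ := by ring
            _ ≤ ‖z j‖ := mul_le_of_le_one_left (norm_nonneg _) (hj₀ i (by omega))
    obtain ⟨V, hV, hV1, hV2⟩ : ∃ V, V < ‖z j‖ ∧ W ≤ V ∧
        ∀ i ∈ Ioo j (j + n), r ^ p ^ i * ‖z i‖ ≤ V := by
      refine ⟨(insert W ((Ioo j (j + n)).image fun i => r ^ p ^ i * ‖z i‖)).max'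
        (insert_nonempty _ _), ?_, le_max' _ _ (mem_insert_self _ _),
        fun i hi => le_max' _ _ (mem_insert_of_mem
          (mem_image_of_mem (fun i => r ^ p ^ i * ‖z i‖) hi))⟩
      refine (max'_lt_iff _ _).2 fun v hv => ?_
      simp only [mem_insert, mem_image, mem_Ioo] at hv
      rcases hv with rfl | ⟨i, ⟨hi1, hi2⟩, rfl⟩
      · exact hbig
      · exact hlow i hi1 hi2
    have hstep := h.step hp hx (hW.trans hV1) ((hw _).trans hV1)
      fun i h1 h2 => hV2 i (mem_Ioo.2 ⟨h1, h2⟩)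
    have := (IsUltrametricDist.norm_add_le_max ((p : K) * z (j + n))
      (z j - (p : K) * z (j + n))).trans_lt (max_lt hpz (by rw [norm_sub_rev]; exact hstep.trans_lt hV))
    simp at this
  have htail : ∀ j, j₀ ≤ j → ‖z j‖ ≤ W := by
    intro j hj
    by_contra hbig
    rw [not_le] at hbig
    have hpos : 0 < b j := by
      have : 0 < ‖z j‖ := hW.trans_lt hbig
      positivity
    obtain ⟨K₀, hK₀⟩ := hsmall _ hpos
    have hchain : ∀ m, ∃ i, j + m ≤ i ∧ W < ‖z i‖ ∧ b j ≤ b i := by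
      intro m
      induction m with
      | zero => exact ⟨j, le_rfl, hbig, le_rfl⟩
      | succ m ih =>
        obtain ⟨i, hi1, hi2, hi3⟩ := ih
        obtain ⟨i', h1, h2, h3⟩ := hnext i (by omega) hi2
        exact ⟨i', by omega, h2, hi3.trans h3⟩
    obtain ⟨i, hi1, -, hi3⟩ := hchain K₀
    exact absurd (hK₀ i (by omega)) (not_lt.2 hi3)
  refine ⟨W + ∑ i ∈ range j₀, ‖z i‖, fun k => ?_⟩
  rcases Nat.lt_or_ge k j₀ with hk | hk
  · have := single_le_sum (f := fun i => ‖z i‖) (fun i _ => norm_nonneg _) (mem_range.2 hk)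
    linarith
  · have := sum_nonneg (s := range j₀) fun i _ => norm_nonneg (z i)
    linarith [htail k hk]

end Vale.Agent.P217.Strat0
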