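import Vale.Agent.P217.J.Point
import Vale.Agent.P217.B.Symm

/-!
# P217, block J: how the periods change under a deep symmetry
-/

noncomputable section

namespace Vale.Agent.P217.Strat0

open Finset Filter
open scoped Topology Classical

variable {p n : ℕ} [Fact p.Prime] {K : Type} [NontriviallyNormedField K]

namespace Point

variable (P : Point p n K)

/-- The point moved by an automorphism. -/
def move (s : E0 p n ≃+* E0 p n) : Point p n K where
  chi := P.chi.comp s.toRingHom
  r := P.r
  r_ge := P.r_ge
  r_lt := P.r_lt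
  small a ha := P.small _ (by
    rw [IsLocalRing.mem_maximalIdeal] at ha ⊢
    exact fun hu => ha (by simpa using hu.map s.symm))
  norm_le a := P.norm_le _
  norm_p := P.norm_p

/-- The point extended to the ring with p inverted. -/
def lift : E0Inv p n →+* K :=
  IsLocalization.Away.lift (p : E0 p n) (g := P.chi)
    (by rw [map_natCast]; exact P.p_ne_zero.isUnit)

theorem lift_algebraMap (g : E0 p n) : P.lift (algebraMap _ _ g) = P.chi g :=
  IsLocalization.Away.lift_eq _ _ g

theorem lift_logCoeff (k : ℕ) : P.lift (logCoeff p n k) = P.M k := by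
  rw [M, eq_div_iff (pow_ne_zero _ P.p_ne_zero), ← P.lift_algebraMap, algebraMap_mu, map_mul,
    map_pow, map_natCast, mul_comm]

/-- The logarithm at the point. -/
def f : PowerSeries K := FE.pser p P.M

theorem map_logSeries : PowerSeries.map P.lift (logSeries p n) = P.f := by
  rw [logSeries_eq, FE.Data.f, FE.map_pser]
  exact congrArg (FE.pser p) (funext P.lift_logCoeff)

theorem log_law {F : FormalGroup (E0 p n)} (hF : IsUniversalDeformation p n F) :
    PowerSeries.subst (F.map P.chi).toPowerSeries P.f =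
      PowerSeries.subst (MvPowerSeries.X 0 : MvPowerSeries (Fin 2) K) P.f +
        PowerSeries.subst (MvPowerSeries.X 1 : MvPowerSeries (Fin 2) K) P.f := by
  have h := congrArg (MvPowerSeries.map P.lift) hF
  rw [map_add, PowerSeries.map_subst (PowerSeries.HasSubst.of_constantCoeff_zero
      (F.map (algebraMap (E0 p n) (E0Inv p n))).zero_constantCoeff),
    PowerSeries.map_subst (PowerSeries.HasSubst.of_constantCoeff_zero
      (MvPowerSeries.constantCoeff_X 0)),
    PowerSeries.map_subst (PowerSeries.HasSubst.of_constantCoeff_zero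
      (MvPowerSeries.constantCoeff_X 1)),
    MvPowerSeries.map_X, MvPowerSeries.map_X, P.map_logSeries] at h
  convert h using 2
  ext1 m
  simp [FormalGroup.map, MvPowerSeries.coeff_map, lift_algebraMap]

theorem coeff_f_one : PowerSeries.coeff 1 P.f = 1 := by
  simp [f, FE.pser, M_zero]

theorem constantCoeff_f : PowerSeries.constantCoeff P.f = 0 := by
  rw [← PowerSeries.coeff_zero_eq_constantCoeff_apply]
  simp [f, FE.pser]

theorem coeff_f_pow (k : ℕ) : PowerSeries.coeff (p ^ k) P.f = P.M k := by
  simp [f, FE.pser, Nat.log_pow (Fact.out : p.Prime).one_lt]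

/-- A series additive for a formal group law and without linear term is zero. -/
theorem additive_eq_zero [CharZero K] {G : FormalGroup K} {g : PowerSeries K}
    (h1 : PowerSeries.coeff 1 g = 0)
    (hg : PowerSeries.subst G.toPowerSeries g =
      PowerSeries.subst (MvPowerSeries.X 0 : MvPowerSeries (Fin 2) K) g +
        PowerSeries.subst (MvPowerSeries.X 1 : MvPowerSeries (Fin 2) K) g) : g = 0 := by
  have hG := PowerSeries.HasSubst.of_constantCoeff_zero G.zero_constantCoeff
  have hX : ∀ i : Fin 2, PowerSeries.HasSubst (MvPowerSeries.X i : MvPowerSeries (Fin 2) K) :=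
    fun i => PowerSeries.HasSubst.of_constantCoeff_zero (MvPowerSeries.constantCoeff_X i)
  ext1 N
  rw [map_zero]
  induction N using Nat.strong_induction_on with
  | _ N ih =>
    match N with
    | 0 =>
      have h := congrArg MvPowerSeries.constantCoeff hg
      rw [map_add, PowerSeries.constantCoeff_subst hG, PowerSeries.constantCoeff_subst (hX 0),
        PowerSeries.constantCoeff_subst (hX 1), finsum_eq_single _ 0, finsum_eq_single _ 0,
        finsum_eq_single _ 0] at h
      · simpa using h
      all_goals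
        intro d hd
        simp [G.zero_constantCoeff, zero_pow hd]
    | 1 => exact h1
    | N + 2 =>
      set m : Fin 2 →₀ ℕ := Finsupp.single 0 (N + 1) + Finsupp.single 1 1 with hm
      have hm0 : m 0 = N + 1 := by simp [hm]
      have hm1 : m 1 = 1 := by simp [hm]
      have hdeg : m.degree = N + 2 := by
        rw [Finsupp.degree_eq_sum, Fin.sum_univ_two, hm0, hm1]
      have h := congrArg (MvPowerSeries.coeff m) hg
      rw [map_add, PowerSeries.coeff_subst hG, PowerSeries.coeff_subst (hX 0),
        PowerSeries.coeff_subst (hX 1), finsum_eq_single _ (N + 2)] at h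
      · rw [finsum_eq_zero_of_forall_eq_zero fun d => ?_,
          finsum_eq_zero_of_forall_eq_zero fun d => ?_, add_zero, smul_eq_mul,
          coeff_pow_eq_linear G.zero_constantCoeff G.lin_coeff_X G.lin_coeff_Y hdeg.le,
          coeff_add_pow (i := N + 1) (by omega) hm0 (by omega), Nat.choose_succ_self_right] at h
        · exact (mul_eq_zero.1 h).resolve_right (Nat.cast_ne_zero.2 (by omega))
        · rw [MvPowerSeries.coeff_X_pow, if_neg, smul_zero]
          intro hc
          have := DFunLike.congr_fun hc 0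
          simp [hm0] at this
        · rw [MvPowerSeries.coeff_X_pow, if_neg, smul_zero]
          intro hc
          have := DFunLike.congr_fun hc 1
          simp [hm1] at this
      · intro d hd
        rcases lt_or_gt_of_ne hd with hlt | hgt
        · rw [ih d hlt, zero_smul]
        · rw [FE.coeff_pow_eq_zero_of_degree_lt G.zero_constantCoeff (hdeg ▸ hgt), smul_zero]

/-- The hom relation at the point: the logarithm composed with ψ is a multiple of the moved one. -/
theorem log_comp [CharZero K] {F : FormalGroup (E0 p n)} (hF : IsUniversalDeformation p n F)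
    {s : E0 p n ≃+* E0 p n} {ψ : PowerSeries (E0 p n)} (h : IsSymmetryWith F s ψ) :
    (PowerSeries.subst (PowerSeries.map P.chi ψ) P.f : PowerSeries K) =
      P.chi (PowerSeries.coeff 1 ψ) • (P.move s).f := by
  obtain ⟨-, hψ0, -, hhom⟩ := h
  set Q := P.move s
  set φ := PowerSeries.map P.chi ψ with hφ
  have hφ0 : PowerSeries.constantCoeff φ = 0 := B.constantCoeff_map_zero _ hψ0
  have hφs := PowerSeries.HasSubst.of_constantCoeff_zero' hφ0
  have hX : ∀ i : Fin 2, PowerSeries.HasSubst (MvPowerSeries.X i : MvPowerSeries (Fin 2) K) :=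
    fun i => PowerSeries.HasSubst.of_constantCoeff_zero (MvPowerSeries.constantCoeff_X i)
  have hX' : ∀ i : Fin 2,
      PowerSeries.HasSubst (MvPowerSeries.X i : MvPowerSeries (Fin 2) (E0 p n)) :=
    fun i => PowerSeries.HasSubst.of_constantCoeff_zero (MvPowerSeries.constantCoeff_X i)
  have hG := PowerSeries.HasSubst.of_constantCoeff_zero (F.map Q.chi).zero_constantCoeff
  have hψX : ∀ i : Fin 2, (PowerSeries.subst
      (MvPowerSeries.X i : MvPowerSeries (Fin 2) (E0 p n)) ψ).constantCoeff = 0 := fun i =>
    PowerSeries.constantCoeff_subst_eq_zero (MvPowerSeries.constantCoeff_X i) _ hψ0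
  have hφX : ∀ i : Fin 2, (PowerSeries.subst
      (MvPowerSeries.X i : MvPowerSeries (Fin 2) K) φ).constantCoeff = 0 := fun i =>
    PowerSeries.constantCoeff_subst_eq_zero (MvPowerSeries.constantCoeff_X i) _ hφ0
  have hhomK : PowerSeries.subst (F.map Q.chi).toPowerSeries φ = MvPowerSeries.subst
      ![PowerSeries.subst (MvPowerSeries.X 0 : MvPowerSeries (Fin 2) K) φ,
        PowerSeries.subst (MvPowerSeries.X 1 : MvPowerSeries (Fin 2) K) φ]
      (F.map P.chi).toPowerSeries := by
    have h := congrArg (MvPowerSeries.map P.chi) hhom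
    rw [PowerSeries.map_subst (PowerSeries.HasSubst.of_constantCoeff_zero
        (F.map s.toRingHom).zero_constantCoeff),
      MvPowerSeries.map_subst (MvPowerSeries.hasSubst_of_constantCoeff_zero fun i => by
        fin_cases i
        · exact hψX 0
        · exact hψX 1)] at h
    have e1 : MvPowerSeries.map P.chi (F.map s.toRingHom).toPowerSeries =
        (F.map Q.chi).toPowerSeries := by
      ext1 m
      simp only [FormalGroup.map, MvPowerSeries.coeff_map]
      rfl
    have e2 : (fun i => MvPowerSeries.map P.chi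
        (![PowerSeries.subst (MvPowerSeries.X 0 : MvPowerSeries (Fin 2) (E0 p n)) ψ,
          PowerSeries.subst (MvPowerSeries.X 1 : MvPowerSeries (Fin 2) (E0 p n)) ψ] i)) =
        ![PowerSeries.subst (MvPowerSeries.X 0 : MvPowerSeries (Fin 2) K) φ,
          PowerSeries.subst (MvPowerSeries.X 1 : MvPowerSeries (Fin 2) K) φ] := by
      funext i
      fin_cases i <;> simp [hφ, PowerSeries.map_subst (hX' _), MvPowerSeries.map_X]
    rw [e1, e2] at h
    exact h
  have hadd : PowerSeries.subst (F.map Q.chi).toPowerSeries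
      (PowerSeries.subst φ P.f : PowerSeries K) =
      PowerSeries.subst (MvPowerSeries.X 0 : MvPowerSeries (Fin 2) K)
          (PowerSeries.subst φ P.f : PowerSeries K) +
        PowerSeries.subst (MvPowerSeries.X 1 : MvPowerSeries (Fin 2) K)
          (PowerSeries.subst φ P.f : PowerSeries K) := by
    rw [PowerSeries.subst_comp_subst_apply hφs hG, PowerSeries.subst_comp_subst_apply hφs (hX 0),
      PowerSeries.subst_comp_subst_apply hφs (hX 1), hhomK,
      FE.log_add (F.map P.chi).zero_constantCoeff (P.log_law hF) (hφX 0) (hφX 1)]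
  set c := P.chi (PowerSeries.coeff 1 ψ) with hc
  set g : PowerSeries K := (PowerSeries.subst φ P.f : PowerSeries K) - c • Q.f
  have h1 : PowerSeries.coeff 1 g = 0 := by
    rw [map_sub, PowerSeries.coeff_smul, Q.coeff_f_one, smul_eq_mul, mul_one, sub_eq_zero]
    show MvPowerSeries.coeff (Finsupp.single () 1) _ = _
    rw [f, FE.coeff_subst_pser (Fact.out : p.Prime).one_lt _ hφ0 _ (Finsupp.degree_single () 1).le,
      sum_range_succ, sum_range_one, M_zero, pow_zero, pow_one, one_mul, pow_one,
      FE.coeff_pow_eq_zero_of_degree_lt hφ0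
        (by rw [Finsupp.degree_single]; exact (Fact.out : p.Prime).one_lt), mul_zero, add_zero]
    exact PowerSeries.coeff_map P.chi 1 ψ
  have hg : g = 0 := by
    refine additive_eq_zero (G := F.map Q.chi) h1 ?_
    simp only [g, PowerSeries.subst_sub hG, PowerSeries.subst_sub (hX 0),
      PowerSeries.subst_sub (hX 1), PowerSeries.subst_smul hG, PowerSeries.subst_smul (hX 0),
      PowerSeries.subst_smul (hX 1), hadd, Q.log_law hF, smul_add]
    abel
  exact sub_eq_zero.1 hg

variable [IsUltrametricDist K]

/-- Series congruent modulo m have p-powers congruent to growing order. -/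
theorem exists_pow_diff_bound : ∃ R : ℝ, 0 ≤ R ∧ ∀ a b : PowerSeries (E0 p n),
    (∀ N, ‖P.chi (PowerSeries.coeff N (a - b))‖ ≤ P.r) →
      ∀ j N, ‖P.chi (PowerSeries.coeff N (a ^ p ^ j - b ^ p ^ j))‖ * (p : ℝ) ^ j ≤ R := by
  have hp := (Fact.out : p.Prime)
  obtain ⟨j₀, hj₀⟩ := exists_tail hp.two_le P.r_pos.le P.r_lt (c := (p : ℝ))
  have hp0 : (0 : ℝ) < p := by exact_mod_cast hp.pos
  have hp1 : (1 : ℝ) ≤ p := by exact_mod_cast hp.one_le
  refine ⟨(p : ℝ) ^ j₀, by positivity, fun a b hab => ?_⟩
  let S : ℝ → PowerSeries (E0 p n) → Prop :=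
    fun ρ g => ∀ N, ‖P.chi (PowerSeries.coeff N g)‖ ≤ ρ
  have S_mul : ∀ {ρ σ g h}, 0 ≤ ρ → 0 ≤ σ → S ρ g → S σ h → S (ρ * σ) (g * h) := by
    intro ρ σ g h hρ hσ hg hh N
    rw [PowerSeries.coeff_mul, map_sum]
    refine IsUltrametricDist.norm_sum_le_of_forall_le_of_nonneg (mul_nonneg hρ hσ) fun x _ => ?_
    rw [map_mul, norm_mul]
    exact mul_le_mul (hg _) (hh _) (norm_nonneg _) hρ
  have S_one : ∀ g, S 1 g := fun g N => P.norm_le _
  have S_pow : ∀ {ρ g}, 0 ≤ ρ → S ρ g → ∀ e, S (ρ ^ e) (g ^ e) := by
    intro ρ g hρ hg e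
    induction e with
    | zero => simpa using S_one 1
    | succ e ih => rw [pow_succ, pow_succ]; exact S_mul (pow_nonneg hρ _) hρ ih hg
  have step : ∀ j ρ, 0 ≤ ρ → S ρ (a ^ p ^ j - b ^ p ^ j) →
      S (max (ρ ^ p) (ρ / p)) (a ^ p ^ (j + 1) - b ^ p ^ (j + 1)) := by
    intro j ρ hρ hd N
    set d := a ^ p ^ j - b ^ p ^ j with hddef
    obtain ⟨q, hq⟩ := exists_add_pow_prime_eq hp (b ^ p ^ j) d
    have e : a ^ p ^ (j + 1) - b ^ p ^ (j + 1) =
        d ^ p + (p : PowerSeries (E0 p n)) * (d * (b ^ p ^ j * q)) := by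
      rw [pow_succ, pow_mul, pow_mul, show a ^ p ^ j = b ^ p ^ j + d by rw [hddef]; ring, hq]
      ring
    rw [e, map_add, map_add]
    refine (IsUltrametricDist.norm_add_le_max _ _).trans (max_le_max (S_pow hρ hd p N) ?_)
    rw [← map_natCast (PowerSeries.C (R := E0 p n)), PowerSeries.coeff_C_mul, map_mul, map_natCast,
      norm_mul, P.norm_p, inv_mul_eq_div]
    gcongr
    simpa using S_mul hρ zero_le_one hd (S_one (b ^ p ^ j * q)) N
  have claim1 : ∀ j, S (max (P.r ^ p ^ j) (p : ℝ)⁻¹) (a ^ p ^ j - b ^ p ^ j) := by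
    intro j
    induction j with
    | zero => intro N; simpa using Or.inl (hab N)
    | succ j ih =>
      intro N
      refine (step j _ (le_max_of_le_right (inv_nonneg.2 hp0.le)) ih N).trans (max_le ?_ ?_)
      · rcases max_cases (P.r ^ p ^ j) (p : ℝ)⁻¹ with ⟨h, -⟩ | ⟨h, -⟩ <;> rw [h]
        · exact le_max_of_le_left (by rw [← pow_mul, ← pow_succ])
        · exact le_max_of_le_right (pow_le_of_le_one (inv_nonneg.2 hp0.le) (inv_le_one_of_one_le₀ hp1)
            hp.ne_zero)
      · refine le_max_of_le_right ?_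
        rw [div_eq_mul_inv]
        exact mul_le_of_le_one_left (inv_nonneg.2 hp0.le)
          (max_le (pow_le_one₀ P.r_pos.le P.r_lt.le) (inv_le_one_of_one_le₀ hp1))
  have claim2 : ∀ j, S ((p : ℝ) ^ j₀ / (p : ℝ) ^ j) (a ^ p ^ j - b ^ p ^ j) := by
    intro j
    induction j with
    | zero => intro N; exact (S_one _ N).trans (by simpa using one_le_pow₀ hp1)
    | succ j ih =>
      intro N
      by_cases hj : j + 1 ≤ j₀
      · exact (S_one _ N).trans
          (by rw [one_le_div (by positivity)]; exact pow_le_pow_right₀ hp1 hj)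
      have hinv : P.r ^ p ^ j ≤ (p : ℝ)⁻¹ := by
        rw [← one_div, le_div_iff₀' hp0]
        exact hj₀ j (by omega)
      set ρ := min ((p : ℝ) ^ j₀ / (p : ℝ) ^ j) (p : ℝ)⁻¹
      have hρ0 : 0 ≤ ρ := le_min (by positivity) (by positivity)
      have hρ : S ρ (a ^ p ^ j - b ^ p ^ j) := fun M =>
        le_min (ih M) ((claim1 j M).trans (max_le hinv le_rfl))
      refine (step j ρ hρ0 hρ N).trans (max_le ?_ ?_)
      · calc ρ ^ p ≤ ρ ^ 2 := pow_le_pow_of_le_one hρ0
              ((min_le_right _ _).trans (inv_le_one_of_one_le₀ hp1)) hp.two_le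
          _ ≤ (p : ℝ) ^ j₀ / (p : ℝ) ^ j * (p : ℝ)⁻¹ := by
              rw [sq]; exact mul_le_mul (min_le_left _ _) (min_le_right _ _) hρ0 (by positivity)
          _ = _ := by rw [pow_succ]; field_simp
      · calc ρ / p ≤ (p : ℝ) ^ j₀ / (p : ℝ) ^ j / p := by gcongr; exact min_le_left _ _
          _ = _ := by rw [pow_succ, div_div]
  intro j N
  rw [← le_div_iff₀ (by positivity)]
  exact claim2 j N

variable [CharZero K]

/-- The logarithm coefficients of the moved point, up to bounded error. -/
theorem exists_coeff_bound {F : FormalGroup (E0 p n)} (hF : IsUniversalDeformation p n F) :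
    ∃ R : ℝ, ∀ (s : E0 p n ≃+* E0 p n) (ψ : PowerSeries (E0 p n)), IsSymmetryWith F s ψ →
      ∀ (l j : ℕ), 1 ≤ l → j < n → ∀ c : GaloisField p n,
        PowerSeries.map residue ψ = digitSeries p (F.map residue)
          (deepDigits n l (Pi.single j c)) →
        ∀ k, ‖P.chi (PowerSeries.coeff 1 ψ) * (P.move s).M k - (P.M k +
          if n * l + j ≤ k then P.M (k - (n * l + j)) *
            P.chi (constants (WittVector.teichmuller p c)) ^ p ^ (k - (n * l + j)) else 0)‖ ≤ R := by
  obtain ⟨R, hR0, hR⟩ := P.exists_pow_diff_bound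
  refine ⟨R, fun s ψ hs l j hl hj c hres k => ?_⟩
  have hp := (Fact.out : p.Prime)
  have hJ : 1 ≤ n * l := Nat.one_le_iff_ne_zero.2 (by
    intro h; rcases Nat.mul_eq_zero.1 h with h | h <;> omega)
  let t : ℕ → E0 p n := fun i => if i = 0 then 1 else if i = n * l + j then
    constants (WittVector.teichmuller p c) else 0
  have ht : ∀ i, residue (t i) = deepDigits n l (Pi.single j c) i := by
    intro i
    simp only [t, deepDigits]
    split_ifs with h1 h2 h3 h4
    · exact map_one _
    · subst h2
      rw [show n * l + j - n * l = j by omega, Pi.single_eq_same]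
      simp [residue, constants]
    · omega
    · rw [Pi.single_eq_of_ne (by omega), map_zero]
    · exact map_zero _
  set b := digitSeries p F t with hb
  have hψ0 := hs.2.1
  have hb0 : PowerSeries.constantCoeff b = 0 := B.constantCoeff_digitSeries F t
  have hdiff : ∀ N, ‖P.chi (PowerSeries.coeff N (ψ - b))‖ ≤ P.r := fun N => P.small _ (by
    rw [CPoint.mem_maximal_iff, map_sub, map_sub, sub_eq_zero, ← PowerSeries.coeff_map,
      ← PowerSeries.coeff_map, hb, B.map_digitSeries, hres, funext ht])
  have hlog : (PowerSeries.subst (PowerSeries.map P.chi b) P.f : PowerSeries K) =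
      FE.pser p fun m => P.lift (B.curveLog p n t m) := by
    have h := congrArg (PowerSeries.map P.lift) (B.log_digitSeries t hF)
    rw [FE.map_pser] at h
    change MvPowerSeries.map P.lift _ = _ at h
    rw [PowerSeries.map_subst (PowerSeries.HasSubst.of_constantCoeff_zero'
      (B.constantCoeff_map_zero _ hb0)), ← logSeries_eq, P.map_logSeries] at h
    rw [← h]
    congr 1
    ext1 N
    rw [PowerSeries.coeff_map]
    show _ = P.lift ((ltData p n).ι (PowerSeries.coeff N b))
    exact (P.lift_algebraMap _).symm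
  have hcl : P.lift (B.curveLog p n t k) = P.M k + if n * l + j ≤ k then P.M (k - (n * l + j)) *
      P.chi (constants (WittVector.teichmuller p c)) ^ p ^ (k - (n * l + j)) else 0 := by
    simp only [B.curveLog, map_sum, map_mul, map_pow, lift_logCoeff, lift_algebraMap]
    rw [← add_sum_erase _ _ (mem_range.2 k.succ_pos), Nat.sub_zero]
    congr 1
    · simp [t]
    · split_ifs with hk
      · rw [sum_eq_single (n * l + j)]
        · have hne0 : n * l + j ≠ 0 := by omega
          simp only [t, if_neg hne0, if_true]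
        · intro i hi hne
          simp [t, (mem_erase.1 hi).1, hne, zero_pow (pow_ne_zero _ hp.ne_zero)]
        · intro h
          exact absurd (mem_erase.2 ⟨by omega, mem_range.2 (by omega)⟩) h
      · refine sum_eq_zero fun i hi => ?_
        have hne : i ≠ n * l + j := by
          have := mem_range.1 (mem_erase.1 hi).2
          omega
        simp [t, (mem_erase.1 hi).1, hne, zero_pow (pow_ne_zero _ hp.ne_zero)]
  have hdeg : (Finsupp.single () (p ^ k)).degree ≤ p ^ k := (Finsupp.degree_single () _).le
  have h1 : P.chi (PowerSeries.coeff 1 ψ) * (P.move s).M k = ∑ i ∈ range (p ^ k + 1),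
      P.M i * P.chi (PowerSeries.coeff (p ^ k) (ψ ^ p ^ i)) := by
    have h := congrArg (PowerSeries.coeff (p ^ k)) (P.log_comp hF hs)
    rw [PowerSeries.coeff_smul, coeff_f_pow, smul_eq_mul] at h
    rw [← h]
    show MvPowerSeries.coeff (Finsupp.single () (p ^ k)) _ = _
    rw [f, FE.coeff_subst_pser hp.one_lt _ (B.constantCoeff_map_zero _ hψ0) _ hdeg]
    refine sum_congr rfl fun i _ => congrArg _ ?_
    show PowerSeries.coeff (p ^ k) (PowerSeries.map P.chi ψ ^ p ^ i) = _
    rw [← map_pow, PowerSeries.coeff_map]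
  have h2 : P.lift (B.curveLog p n t k) = ∑ i ∈ range (p ^ k + 1),
      P.M i * P.chi (PowerSeries.coeff (p ^ k) (b ^ p ^ i)) := by
    have h := congrArg (PowerSeries.coeff (p ^ k)) hlog
    rw [FE.pser, PowerSeries.coeff_mk, if_pos (by rw [Nat.log_pow hp.one_lt]),
      Nat.log_pow hp.one_lt] at h
    rw [← h]
    show MvPowerSeries.coeff (Finsupp.single () (p ^ k)) _ = _
    rw [f, FE.coeff_subst_pser hp.one_lt _ (B.constantCoeff_map_zero _ hb0) _ hdeg]
    refine sum_congr rfl fun i _ => congrArg _ ?_
    show PowerSeries.coeff (p ^ k) (PowerSeries.map P.chi b ^ p ^ i) = _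
    rw [← map_pow, PowerSeries.coeff_map]
  rw [← hcl, h1, h2, ← sum_sub_distrib]
  refine IsUltrametricDist.norm_sum_le_of_forall_le_of_nonneg hR0 fun i _ => ?_
  rw [← mul_sub, ← map_sub, ← map_sub, norm_mul, mul_comm]
  exact le_trans (mul_le_mul_of_nonneg_left (P.norm_M_le i) (norm_nonneg _))
    (hR ψ b hdiff i (p ^ k))

/-- The shift of the residue of t by j modulo n. -/
def shift (n j t : ℕ) : ℕ := if j ≤ t then t - j else t + n - j

/-- The tangent vector of the digit c in place j. -/
def vec (j : ℕ) (c : GaloisField p n) (t : ℕ) : K :=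
  (if j ≤ t then 1 else (p : K)) * P.a (shift n j t) *
    P.chi (constants (WittVector.teichmuller p c)) ^ p ^ shift n j t

omit [IsUltrametricDist K] [CharZero K] in
theorem teich_periodic (hn : 1 ≤ n) (c : GaloisField p n) (σ m : ℕ) :
    P.chi (constants (WittVector.teichmuller p c)) ^ p ^ (σ + n * m) =
      P.chi (constants (WittVector.teichmuller p c)) ^ p ^ σ := by
  have : Fintype (GaloisField p n) := Fintype.ofFinite _
  have hc : ∀ m : ℕ, c ^ p ^ (n * m) = c := by
    intro m
    rw [pow_mul, ← GaloisField.card p n (by omega), Nat.card_eq_fintype_card, FiniteField.pow_card_pow]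
  simp only [← map_pow]
  rw [pow_add, mul_comm (p ^ σ), pow_mul, hc]

variable [CompleteSpace K]

/-- The periods at the moved point. -/
theorem periods_move {F : FormalGroup (E0 p n)} (hF : IsUniversalDeformation p n F)
    {s : E0 p n ≃+* E0 p n} {ψ : PowerSeries (E0 p n)} (hs : IsSymmetryWith F s ψ)
    {l j : ℕ} (hl : 1 ≤ l) (hj : j < n) (c : GaloisField p n)
    (hres : PowerSeries.map residue ψ = digitSeries p (F.map residue)
      (deepDigits n l (Pi.single j c))) {t : ℕ} (ht : t < n) :
    P.chi (PowerSeries.coeff 1 ψ) * (P.move s).a t = P.a t + (p : K) ^ l * P.vec j c t := by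
  obtain ⟨R, hR⟩ := P.exists_coeff_bound hF
  have hn : 1 ≤ n := by omega
  have hb := hR s ψ hs l j hl hj c hres
  obtain ⟨e, he, hle, hshift⟩ : ∃ e, (p : K) ^ e = (p : K) ^ l * (if j ≤ t then 1 else (p : K)) ∧
      l ≤ e ∧ n * e + t = n * l + j + shift n j t := by
    by_cases h : j ≤ t
    · exact ⟨l, by rw [if_pos h, mul_one], le_rfl, by simp only [shift, if_pos h]; omega⟩
    · exact ⟨l + 1, by rw [if_neg h, pow_succ], Nat.le_succ l,
        by simp only [shift, if_neg h, mul_add, mul_one]; omega⟩
  have hσ : shift n j t < n := by simp only [shift]; split_ifs <;> omega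
  set τ := P.chi (constants (WittVector.teichmuller p c)) with hτ
  set σ := shift n j t
  have hT1 : Tendsto (fun L => P.chi (PowerSeries.coeff 1 ψ) *
      ((p : K) ^ L * (P.move s).M (t + n * L)) - (p : K) ^ L * P.M (t + n * L) -
      (p : K) ^ e * ((p : K) ^ (L - e) * P.M (σ + n * (L - e))) * τ ^ p ^ σ) atTop (𝓝 0) := by
    refine squeeze_zero_norm' (a := fun L : ℕ => R * ((p : ℝ)⁻¹) ^ L) ?_ ?_
    · refine eventually_atTop.2 ⟨e, fun L hL => ?_⟩
      have hk : n * l + j ≤ t + n * L ∧ t + n * L - (n * l + j) = σ + n * (L - e) := by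
        have : n * L = n * e + n * (L - e) := by rw [← Nat.mul_add, Nat.add_sub_cancel' hL]
        omega
      have h := hb (t + n * L)
      rw [if_pos hk.1, hk.2, P.teich_periodic hn, ← hτ] at h
      calc _ = ‖(p : K) ^ L * (P.chi (PowerSeries.coeff 1 ψ) * (P.move s).M (t + n * L) -
            (P.M (t + n * L) + P.M (σ + n * (L - e)) * τ ^ p ^ σ))‖ := by
            congr 1
            rw [← mul_assoc ((p : K) ^ e), ← pow_add, Nat.add_sub_cancel' hL]
            ring
        _ ≤ R * ((p : ℝ)⁻¹) ^ L := by
            rw [norm_mul, norm_pow, P.norm_p, mul_comm]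
            gcongr
    · simpa using (tendsto_pow_atTop_nhds_zero_of_lt_one (r := (p : ℝ)⁻¹) (by positivity)
        (lt_of_le_of_lt P.r_ge P.r_lt)).const_mul R
  have hT2 := ((((P.move s).tendsto_M hn ht).const_mul (P.chi (PowerSeries.coeff 1 ψ))).sub
    (P.tendsto_M hn ht)).sub
      ((((P.tendsto_M hn hσ).comp (tendsto_sub_atTop_nat e)).const_mul ((p : K) ^ e)).mul_const
        (τ ^ p ^ σ))
  have h0 := tendsto_nhds_unique hT2 hT1
  rw [he] at h0
  simp only [vec]
  linear_combination h0

end Point

end Vale.Agent.P217.Strat0
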